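import Vale.Agent.P363.R801.PState
import Vale.Agent.P363.R.Sob.S16

/-! Slice inequality (h2) for the scaled Coulomb potential `Top.pot lam`. -/

namespace Vale.Agent.P363.R801

open MeasureTheory Filter Topology
open Vale.Agent.P363.Stmt
open Vale.Agent.P363.H382
open Vale.Agent.P363.H943
open Vale.Agent.P363.R.Sob
open Vale.Agent.P363.R.Top
open scoped ContDiff ENNReal ComplexConjugate

set_option linter.unusedSectionVars false

noncomputable section

variable {n : ℕ}

theorem sum_Ioi_zero (F : Fin (n + 1) → ℝ) :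
    ∑ k ∈ Finset.Ioi (0 : Fin (n + 1)), F k = ∑ j : Fin n, F j.succ := by
  have h : Finset.Ioi (0 : Fin (n + 1)) = Finset.univ.map (Fin.succEmb n) := by
    ext k
    refine Fin.cases ?_ (fun j => ?_) k
    · simp
    · simp
  rw [h, Finset.sum_map]
  rfl

theorem sum_Ioi_succ (i : Fin n) (F : Fin (n + 1) → ℝ) :
    ∑ k ∈ Finset.Ioi i.succ, F k = ∑ j ∈ Finset.Ioi i, F j.succ := by
  have h : Finset.Ioi i.succ = (Finset.Ioi i).map (Fin.succEmb n) := by
    ext k
    refine Fin.cases ?_ (fun j => ?_) k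
    · simp
    · simp
  rw [h, Finset.sum_map]
  rfl

theorem rep_succ (z : Conf (n + 1)) :
    rep z = (∑ j : Fin n, 1 / ‖z 0 - z j.succ‖) + rep (fun i => z i.succ : Conf n) := by
  unfold rep
  rw [Fin.sum_univ_succ, sum_Ioi_zero]
  congr 1
  refine Finset.sum_congr rfl fun i _ => ?_
  rw [sum_Ioi_succ]

theorem pot_succ (lam : ℝ) (z : Conf (n + 1)) :
    pot lam z = -(1 / ‖z 0‖) + pot lam (fun i => z i.succ : Conf n) +
      lam * ∑ j : Fin n, 1 / ‖z 0 - z j.succ‖ := by
  unfold pot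
  rw [rep_succ, Fin.sum_univ_succ]
  ring

/-- coordinate projection `z ↦ z i` -/
def prj {N : ℕ} (i : Fin N) : Conf N →L[ℝ] R3 := ContinuousLinearMap.proj i

theorem prj_dir {N : ℕ} (i : Fin N) (k : Fin 3) :
    prj i (dir i k) = EuclideanSpace.single k (1 : ℝ) := by
  simp [prj, dir, e3]

theorem prj_sub_dir {N : ℕ} {i j : Fin N} (h : i ≠ j) (k : Fin 3) :
    (prj i - prj j) (dir i k) = EuclideanSpace.single k (1 : ℝ) := by
  simp [prj, dir, e3, Ne.symm h]

section one

variable {N : ℕ} {f : Conf N → ℂ} {g : Fin N → Fin 3 → Conf N → ℂ}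

theorem int_one (hf : MemLp f 2 volume) (hg : ∀ i k, MemLp (g i k) 2 volume)
    (h : ∀ i k, IsWD volume (dir i k) f (g i k)) (i : Fin N) :
    Integrable (fun z => ‖f z‖ ^ 2 / ‖z i‖) := by
  have := (coulomb_le (μ := (volume : Measure (Conf N))) (prj i) 0 (fun k => dir i k)
    (fun k => prj_dir i k) hf (fun k => hg i k) (fun k => h i k)).1
  simpa [prj] using this

theorem int_two (hf : MemLp f 2 volume) (hg : ∀ i k, MemLp (g i k) 2 volume)
    (h : ∀ i k, IsWD volume (dir i k) f (g i k)) {i j : Fin N} (hij : i ≠ j) :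
    Integrable (fun z => ‖f z‖ ^ 2 / ‖z i - z j‖) := by
  have := (coulomb_le (μ := (volume : Measure (Conf N))) (prj i - prj j) 0 (fun k => dir i k)
    (fun k => prj_sub_dir hij k) hf (fun k => hg i k) (fun k => h i k)).1
  simpa [prj] using this

end one

variable (u : PState n)

theorem PState.int_one (s : Fin (n + 1) → Fin 2) (i : Fin (n + 1)) :
    Integrable (fun z => ‖u.amp s z‖ ^ 2 / ‖z i‖) :=
  R801.int_one (u.amp_memLp s) (u.grad_memLp s) (u.grad_wd s) i

theorem PState.int_two (s : Fin (n + 1) → Fin 2) {i j : Fin (n + 1)} (h : i ≠ j) :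
    Integrable (fun z => ‖u.amp s z‖ ^ 2 / ‖z i - z j‖) :=
  R801.int_two (u.amp_memLp s) (u.grad_memLp s) (u.grad_wd s) h

theorem PState.int_rep_tail (s : Fin (n + 1) → Fin 2) :
    Integrable (fun z : Conf (n + 1) => rep (fun i => z i.succ : Conf n) * ‖u.amp s z‖ ^ 2) := by
  have : (fun z : Conf (n + 1) => rep (fun i => z i.succ : Conf n) * ‖u.amp s z‖ ^ 2) =
      fun z => ∑ i : Fin n, ∑ k ∈ Finset.Ioi i, ‖u.amp s z‖ ^ 2 / ‖z i.succ - z k.succ‖ := by
    funext z
    unfold rep
    rw [Finset.sum_mul]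
    refine Finset.sum_congr rfl fun i _ => ?_
    rw [Finset.sum_mul]
    refine Finset.sum_congr rfl fun k _ => ?_
    ring
  rw [this]
  refine integrable_finsetSum _ fun i _ => integrable_finsetSum _ fun k hk => ?_
  refine u.int_two s fun h => ?_
  have h1 : i = k := Fin.succ_injective _ h
  have h2 := Finset.mem_Ioi.1 hk
  exact absurd h1 (ne_of_lt h2)

theorem PState.int_pot_tail (lam : ℝ) (s : Fin (n + 1) → Fin 2) :
    Integrable (fun z : Conf (n + 1) => pot lam (fun i => z i.succ : Conf n) * ‖u.amp s z‖ ^ 2) := by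
  have : (fun z : Conf (n + 1) => pot lam (fun i => z i.succ : Conf n) * ‖u.amp s z‖ ^ 2) =
      fun z => (∑ i : Fin n, -(‖u.amp s z‖ ^ 2 / ‖z i.succ‖)) +
        lam * (rep (fun i => z i.succ : Conf n) * ‖u.amp s z‖ ^ 2) := by
    funext z
    unfold pot
    rw [add_mul, Finset.sum_mul]
    congr 1
    · refine Finset.sum_congr rfl fun i _ => ?_
      ring
    · ring
  rw [this]
  exact (integrable_finsetSum _ fun i _ => (u.int_one s i.succ).neg).add
    ((u.int_rep_tail s).const_mul lam)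

theorem PState.int_cross (s : Fin (n + 1) → Fin 2) :
    Integrable (fun z : Conf (n + 1) => (∑ j : Fin n, 1 / ‖z 0 - z j.succ‖) * ‖u.amp s z‖ ^ 2) := by
  have : (fun z : Conf (n + 1) => (∑ j : Fin n, 1 / ‖z 0 - z j.succ‖) * ‖u.amp s z‖ ^ 2) =
      fun z => ∑ j : Fin n, ‖u.amp s z‖ ^ 2 / ‖z 0 - z j.succ‖ := by
    funext z
    rw [Finset.sum_mul]
    exact Finset.sum_congr rfl fun j _ => by ring
  rw [this]
  exact integrable_finsetSum _ fun j _ => u.int_two s (Ne.symm (Fin.succ_ne_zero j))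

theorem PState.int_pot (lam : ℝ) (s : Fin (n + 1) → Fin 2) :
    Integrable (fun z : Conf (n + 1) => pot lam z * ‖u.amp s z‖ ^ 2) := by
  have : (fun z : Conf (n + 1) => pot lam z * ‖u.amp s z‖ ^ 2) =
      fun z => -(‖u.amp s z‖ ^ 2 / ‖z 0‖) + pot lam (fun i => z i.succ : Conf n) * ‖u.amp s z‖ ^ 2 +
        lam * ((∑ j : Fin n, 1 / ‖z 0 - z j.succ‖) * ‖u.amp s z‖ ^ 2) := by
    funext z
    rw [pot_succ]
    ring
  rw [this]
  exact ((u.int_one s 0).neg.add (u.int_pot_tail lam s)).add ((u.int_cross s).const_mul lam)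

/-- twice the kinetic energy of all electrons -/
def PState.kin : ℝ := ∑ s, ∑ i, ∑ k, ∫ z, ‖u.grad s i k z‖ ^ 2

/-- twice the kinetic energy of electron `0` -/
def PState.kin0 : ℝ := ∑ s, ∑ k, ∫ z, ‖u.grad s 0 k z‖ ^ 2

/-- squared norm -/
def PState.nsq : ℝ := ∑ s, ∫ z, ‖u.amp s z‖ ^ 2

/-- the energy form of `pot lam` -/
def PState.en (lam : ℝ) : ℝ := (1 / 2) * u.kin + ∑ s, ∫ z, pot lam z * ‖u.amp s z‖ ^ 2

/-- (h2) with a predicate on the slices. -/
theorem PState.h2 {lam : ℝ} (hlam : 0 ≤ lam) (E : ℝ) (P : ElectronState n → Prop)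
    (hE : ∀ χ : ElectronState n, P χ → E * normSq χ ≤ energy (pot lam) χ)
    (hP : ∀ᵐ x : R3, ∀ (a : Fin 2) (χ : ElectronState n), IsSlice u x a χ → P χ) :
    (1 / 2) * u.kin0 - (∑ s, ∫ z, ‖u.amp s z‖ ^ 2 / ‖z 0‖) + E * u.nsq ≤ u.en lam := by
  have h := u.energy_slices (pot lam) E P hE hP (u.int_pot_tail lam)
  have hk : u.kin = u.kin0 + ∑ s, ∑ i : Fin n, ∑ k, ∫ z, ‖u.grad s i.succ k z‖ ^ 2 := by
    unfold PState.kin PState.kin0
    rw [← Finset.sum_add_distrib]
    exact Finset.sum_congr rfl fun s _ => by rw [Fin.sum_univ_succ]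
  have hv : ∀ s, ∫ z, pot lam z * ‖u.amp s z‖ ^ 2 =
      -(∫ z, ‖u.amp s z‖ ^ 2 / ‖z 0‖) +
        (∫ z, pot lam (fun i => z i.succ : Conf n) * ‖u.amp s z‖ ^ 2) +
        lam * ∫ z, (∑ j : Fin n, 1 / ‖z 0 - z j.succ‖) * ‖u.amp s z‖ ^ 2 := by
    intro s
    have e : ∫ z, pot lam z * ‖u.amp s z‖ ^ 2 = ∫ z, (-(‖u.amp s z‖ ^ 2 / ‖z 0‖) +
        pot lam (fun i => z i.succ : Conf n) * ‖u.amp s z‖ ^ 2 +
        lam * ((∑ j : Fin n, 1 / ‖z 0 - z j.succ‖) * ‖u.amp s z‖ ^ 2)) := by
      refine integral_congr_ae (Eventually.of_forall fun z => ?_)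
      simp only
      rw [pot_succ]
      ring
    have i1 : Integrable (fun z : Conf (n + 1) => -(‖u.amp s z‖ ^ 2 / ‖z 0‖)) := (u.int_one s 0).neg
    have i2 := u.int_pot_tail lam s
    have i3 := (u.int_cross s).const_mul lam
    have i12 : Integrable (fun z : Conf (n + 1) => -(‖u.amp s z‖ ^ 2 / ‖z 0‖) +
      pot lam (fun i => z i.succ : Conf n) * ‖u.amp s z‖ ^ 2) := i1.add i2
    rw [e, integral_add i12 i3, integral_add i1 i2, integral_const_mul, integral_neg]
  have hc : ∀ s, 0 ≤ ∫ z, (∑ j : Fin n, 1 / ‖z 0 - z j.succ‖) * ‖u.amp s z‖ ^ 2 := fun s =>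
    integral_nonneg fun z => mul_nonneg (Finset.sum_nonneg fun j _ => by positivity) (by positivity)
  unfold PState.en PState.nsq
  rw [hk, Finset.sum_congr rfl fun s _ => hv s, Finset.sum_add_distrib, Finset.sum_add_distrib,
    Finset.sum_neg_distrib, ← Finset.mul_sum]
  have h3 : 0 ≤ lam * ∑ s, ∫ z, (∑ j : Fin n, 1 / ‖z 0 - z j.succ‖) * ‖u.amp s z‖ ^ 2 :=
    mul_nonneg hlam (Finset.sum_nonneg fun s _ => hc s)
  linarith

/-- (h2) without condition on the slices. -/
theorem PState.h2' {lam : ℝ} (hlam : 0 ≤ lam) (E : ℝ)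
    (hE : ∀ χ : ElectronState n, E * normSq χ ≤ energy (pot lam) χ) :
    (1 / 2) * u.kin0 - (∑ s, ∫ z, ‖u.amp s z‖ ^ 2 / ‖z 0‖) + E * u.nsq ≤ u.en lam :=
  u.h2 hlam E (fun _ => True) (fun χ _ => hE χ) (Eventually.of_forall fun _ _ _ _ => trivial)

/-- (h2) for states whose slices are orthogonal to `Φ`. -/
theorem PState.h2_gap {lam : ℝ} (hlam : 0 ≤ lam) (E : ℝ) (Φ : ElectronState n)
    (hE : ∀ χ : ElectronState n, inn Φ χ = 0 → E * normSq χ ≤ energy (pot lam) χ)
    (hΦ : ∀ᵐ x : R3, ∀ a : Fin 2,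
      ∑ s, ∫ y : Conf n, conj (Φ.amp s y) * u.amp (Fin.cons a s) (Fin.cons x y) = 0) :
    (1 / 2) * u.kin0 - (∑ s, ∫ z, ‖u.amp s z‖ ^ 2 / ‖z 0‖) + E * u.nsq ≤ u.en lam := by
  refine u.h2 hlam E (fun χ => inn Φ χ = 0) hE ?_
  filter_upwards [hΦ] with x hx a χ hχ
  have h := hx a
  unfold inn
  simp only [hχ.1]
  exact h

/-! ### from electron states to partially antisymmetric states -/

theorem cons_comp_decompose {α : Type*} (a : α) (s : Fin n → α) (σ : Equiv.Perm (Fin n)) :
    (Fin.cons a (s ∘ σ) : Fin (n + 1) → α) =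
      (Fin.cons a s : Fin (n + 1) → α) ∘ (Equiv.Perm.decomposeFin.symm (0, σ)) := by
  funext j
  refine Fin.cases ?_ (fun j => ?_) j
  · simp
  · simp [Equiv.Perm.decomposeFin_symm_apply_succ]

/-- an electron state, seen as a partially antisymmetric state -/
def PState.ofES (Ψ : ElectronState (n + 1)) : PState n where
  amp := Ψ.amp
  grad := Ψ.grad
  amp_memLp := Ψ.amp_memLp
  grad_memLp := Ψ.grad_memLp
  grad_wd s i k := isWeakDeriv_iff.1 (Ψ.grad_weak s i k)
  antisymm σ a s := by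
    have h := Ψ.antisymm (Equiv.Perm.decomposeFin.symm (0, σ)) (Fin.cons a s)
    rw [AEConf_iff] at h
    have h' := consE_mp.quasiMeasurePreserving.ae h
    filter_upwards [h'] with p hp
    simp only [consE_apply] at hp
    rw [cons_comp_decompose a s σ, cons_comp_decompose p.1 p.2 σ, hp]
    simp [Equiv.Perm.decomposeFin.symm_sign]

/-- multiplication by a bounded smooth function with bounded derivative of the position of
electron `0`. -/
def PState.mulG (G : R3 → ℝ) (hG : ContDiff ℝ ∞ G) (C : ℝ) (hC : ∀ x, |G x| ≤ C)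
    (hC' : ∀ k x, |fderiv ℝ G x (e3 k)| ≤ C) : PState n where
  amp s z := G (z 0) * u.amp s z
  grad s i k z := (if i = 0 then (fderiv ℝ G (z 0) (e3 k) : ℂ) * u.amp s z else 0) +
    G (z 0) * u.grad s i k z
  amp_memLp s := by
    have hc : Continuous fun z : Conf (n + 1) => (G (z 0) : ℂ) :=
      Complex.continuous_ofReal.comp (hG.continuous.comp (continuous_apply 0))
    refine (u.amp_memLp s).of_le_mul (c := C) (hc.aestronglyMeasurable.mul (u.amp_memLp s).1)
      (Eventually.of_forall fun z => ?_)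
    rw [norm_mul, Complex.norm_real]
    exact mul_le_mul_of_nonneg_right (hC _) (norm_nonneg _)
  grad_memLp s i k := by
    have hc : Continuous fun z : Conf (n + 1) => (G (z 0) : ℂ) :=
      Complex.continuous_ofReal.comp (hG.continuous.comp (continuous_apply 0))
    have hd : Continuous fun z : Conf (n + 1) => (fderiv ℝ G (z 0) (e3 k) : ℂ) := by
      refine Complex.continuous_ofReal.comp ?_
      exact ((hG.continuous_fderiv (by simp)).comp (continuous_apply 0)).clm_apply continuous_const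
    refine MemLp.add ?_ ?_
    · by_cases hi : i = 0
      · simp only [hi, if_true]
        refine (u.amp_memLp s).of_le_mul (c := C) (hd.aestronglyMeasurable.mul (u.amp_memLp s).1)
          (Eventually.of_forall fun z => ?_)
        rw [norm_mul, Complex.norm_real]
        exact mul_le_mul_of_nonneg_right (hC' _ _) (norm_nonneg _)
      · simp only [hi, if_false]
        exact MemLp.zero
    · refine (u.grad_memLp s i k).of_le_mul (c := C)
        (hc.aestronglyMeasurable.mul (u.grad_memLp s i k).1) (Eventually.of_forall fun z => ?_)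
      rw [norm_mul, Complex.norm_real]
      exact mul_le_mul_of_nonneg_right (hC _) (norm_nonneg _)
  grad_wd s i k := by
    have hψ : ContDiff ℝ ∞ (fun z : Conf (n + 1) => G (z 0)) :=
      hG.comp (contDiff_apply ℝ R3 0)
    have h := (u.grad_wd s i k).smooth_smul hψ ((u.amp_memLp s).locallyIntegrable (by norm_num))
      ((u.grad_memLp s i k).locallyIntegrable (by norm_num))
    refine h.congr ?_ ?_
    · exact Eventually.of_forall fun z => by simp [Complex.real_smul]
    · refine Eventually.of_forall fun z => ?_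
      have hd : fderiv ℝ (fun z : Conf (n + 1) => G (z 0)) z (dir i k) =
          if i = 0 then fderiv ℝ G (z 0) (e3 k) else 0 := by
        have h1 : HasFDerivAt (fun z : Conf (n + 1) => G (z 0))
            ((fderiv ℝ G (z 0)).comp (ContinuousLinearMap.proj 0)) z :=
          ((hG.differentiable (by simp)) (z 0)).hasFDerivAt.comp z
            (ContinuousLinearMap.proj (R := ℝ) (φ := fun _ : Fin (n + 1) => R3) 0).hasFDerivAt
        rw [h1.fderiv]
        by_cases hi : i = 0
        · subst hi; simp [dir]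
        · simp [dir, hi, Ne.symm hi]
      simp only [hd, Complex.real_smul]
      by_cases hi : i = 0 <;> simp [hi]
  antisymm σ a s := by
    filter_upwards [u.antisymm σ a s] with p hp
    simp only [Fin.cons_zero]
    rw [hp]
    ring

end

end Vale.Agent.P363.R801
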