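import Vale.Agent.P363.R801.QWeight
import Vale.Agent.P363.R.B5.Defs

/-! B5.6: the `Q`-channel estimate. -/

namespace Vale.Agent.P363.R801

open MeasureTheory Filter Topology Metric
open Vale.Agent.P363.Stmt
open Vale.Agent.P363.H382
open Vale.Agent.P363.H943
open Vale.Agent.P363.R.Sob
open Vale.Agent.P363.R.Top
open Vale.Agent.P363.B5
open scoped ContDiff ENNReal ComplexConjugate

set_option linter.unusedSectionVars false

noncomputable section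

variable {n : ℕ}

/-- the multipole potential is square integrable against the ion state, with the bound of B5.3. -/
def MultB (Φ : ElectronState n) (CB : ℝ) : Prop :=
  ∀ x : R3, 1 ≤ ‖x‖ → (∀ s, Integrable fun y : Conf n =>
    crossW (Fin.cons x y : Conf (n + 1)) ^ 2 * ‖Φ.amp s y‖ ^ 2) ∧
    ∑ s, ∫ y : Conf n, crossW (Fin.cons x y : Conf (n + 1)) ^ 2 * ‖Φ.amp s y‖ ^ 2 ≤
      (CB / ‖x‖ ^ 2) ^ 2

theorem measurable_crossW : Measurable (crossW : Conf (n + 1) → ℝ) := by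
  unfold crossW
  exact (Finset.measurable_fun_sum _ fun j _ => measurable_inv_two 0 j.succ).sub
    ((measurable_inv_one 0).const_mul _)

/-- bound of the source term -/
theorem source_le {Φ : ElectronState n} {Ψ : ElectronState (n + 1)} {CB : ℝ} (hB : MultB Φ CB)
    {G : R3 → ℝ} (hG : Continuous G) (hG0 : ∀ x, ‖x‖ < 1 → G x = 0) {B : R3 → ℝ}
    (hBi : Integrable B)
    (hGB : ∀ᵐ x, 1 ≤ ‖x‖ → G x ^ 2 * ‖dyson Φ Ψ 0 x‖ ^ 2 * (CB / ‖x‖ ^ 2) ^ 2 ≤ B x)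
    (hB0 : ∀ x, 0 ≤ B x) :
    (∀ s, Integrable fun z : Conf (n + 1) =>
      crossW z ^ 2 * (G (z 0) ^ 2 * ‖(pPart Φ Ψ).amp s z‖ ^ 2)) ∧
    ∑ s, ∫ z, crossW z ^ 2 * (G (z 0) ^ 2 * ‖(pPart Φ Ψ).amp s z‖ ^ 2) ≤ ∫ x, B x := by
  set d := dysF Φ (fam Ψ) 0 with hd
  -- the `a = 1` part vanishes
  have e1 : ∀ (s : Fin n → Fin 2) (b : Fin 2), b ≠ 0 → (pPart Φ Ψ).amp (Fin.cons b s) =
      fun _ => 0 := fun s b hb => (prodFam_one _ _ _ Φ hb s).1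
  -- the slices
  have e0 : ∀ (s : Fin n → Fin 2) (x : R3) (y : Conf n),
      crossW (Fin.cons x y : Conf (n + 1)) ^ 2 *
        (G ((Fin.cons x y : Conf (n + 1)) 0) ^ 2 *
          ‖(pPart Φ Ψ).amp (Fin.cons 0 s) (Fin.cons x y)‖ ^ 2) =
      (G x ^ 2 * ‖d x‖ ^ 2) * (crossW (Fin.cons x y : Conf (n + 1)) ^ 2 * ‖Φ.amp s y‖ ^ 2) := by
    intro s x y
    rw [pPart_amp, if_pos rfl, Fin.cons_zero, norm_mul, mul_pow]
    ring
  have hm : ∀ s : Fin (n + 1) → Fin 2, AEStronglyMeasurable (fun z : Conf (n + 1) =>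
      crossW z ^ 2 * (G (z 0) ^ 2 * ‖(pPart Φ Ψ).amp s z‖ ^ 2)) volume := by
    intro s
    refine ((measurable_crossW.pow_const 2).aestronglyMeasurable).mul
      (AEStronglyMeasurable.mul ?_ (((pPart Φ Ψ).amp_mem s).1.norm.pow 2))
    exact ((hG.comp (continuous_apply 0)).pow 2).aestronglyMeasurable
  have hin : ∀ (s : Fin n → Fin 2) (x : R3), Integrable (fun y : Conf n =>
      crossW (Fin.cons x y : Conf (n + 1)) ^ 2 *
        (G ((Fin.cons x y : Conf (n + 1)) 0) ^ 2 *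
          ‖(pPart Φ Ψ).amp (Fin.cons 0 s) (Fin.cons x y)‖ ^ 2)) := by
    intro s x
    simp only [e0]
    by_cases hx : 1 ≤ ‖x‖
    · exact ((hB x hx).1 s).const_mul _
    · have : G x = 0 := hG0 x (not_le.1 hx)
      simp [this]
  have hle : ∀ᵐ x : R3, ∑ s : Fin n → Fin 2, ∫ y : Conf n,
      crossW (Fin.cons x y : Conf (n + 1)) ^ 2 *
        (G ((Fin.cons x y : Conf (n + 1)) 0) ^ 2 *
          ‖(pPart Φ Ψ).amp (Fin.cons 0 s) (Fin.cons x y)‖ ^ 2) ≤ B x := by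
    filter_upwards [hGB] with x hx
    simp only [e0, integral_const_mul]
    rw [← Finset.mul_sum]
    by_cases hx1 : 1 ≤ ‖x‖
    · refine le_trans ?_ (hx hx1)
      exact mul_le_mul_of_nonneg_left (hB x hx1).2 (by positivity)
    · have : G x = 0 := hG0 x (not_le.1 hx1)
      simp [this, hB0 x]
  have hnn : ∀ (s : Fin n → Fin 2) (x : R3), 0 ≤ ∫ y : Conf n,
      crossW (Fin.cons x y : Conf (n + 1)) ^ 2 *
        (G ((Fin.cons x y : Conf (n + 1)) 0) ^ 2 *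
          ‖(pPart Φ Ψ).amp (Fin.cons 0 s) (Fin.cons x y)‖ ^ 2) := fun s x =>
    integral_nonneg fun y => by positivity
  -- integrability
  have hI : ∀ s : Fin n → Fin 2, Integrable fun z : Conf (n + 1) =>
      crossW z ^ 2 * (G (z 0) ^ 2 * ‖(pPart Φ Ψ).amp (Fin.cons 0 s) z‖ ^ 2) := by
    intro s
    have hm' : AEStronglyMeasurable (fun p : R3 × Conf n =>
        crossW (Fin.cons p.1 p.2 : Conf (n + 1)) ^ 2 *
        (G ((Fin.cons p.1 p.2 : Conf (n + 1)) 0) ^ 2 *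
          ‖(pPart Φ Ψ).amp (Fin.cons 0 s) (Fin.cons p.1 p.2)‖ ^ 2))
        ((volume : Measure R3).prod volume) :=
      (hm (Fin.cons 0 s)).comp_measurePreserving consE_mp
    refine integrable_unc_iff.1 ?_
    refine (integrable_prod_iff hm').2 ⟨Eventually.of_forall fun x => hin s x, ?_⟩
    refine hBi.mono' hm'.norm.integral_prod_right' ?_
    filter_upwards [hle] with x hx
    have h1 : ∫ y : Conf n, ‖crossW (Fin.cons x y : Conf (n + 1)) ^ 2 *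
        (G ((Fin.cons x y : Conf (n + 1)) 0) ^ 2 *
          ‖(pPart Φ Ψ).amp (Fin.cons 0 s) (Fin.cons x y)‖ ^ 2)‖ = ∫ y : Conf n,
        crossW (Fin.cons x y : Conf (n + 1)) ^ 2 *
        (G ((Fin.cons x y : Conf (n + 1)) 0) ^ 2 *
          ‖(pPart Φ Ψ).amp (Fin.cons 0 s) (Fin.cons x y)‖ ^ 2) := by
      congr 1
      funext y
      exact Real.norm_of_nonneg (by positivity)
    rw [h1, Real.norm_of_nonneg (hnn s x)]
    exact (Finset.single_le_sum (f := fun s : Fin n → Fin 2 => ∫ y : Conf n,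
      crossW (Fin.cons x y : Conf (n + 1)) ^ 2 *
        (G ((Fin.cons x y : Conf (n + 1)) 0) ^ 2 *
          ‖(pPart Φ Ψ).amp (Fin.cons 0 s) (Fin.cons x y)‖ ^ 2)) (fun s _ => hnn s x)
      (Finset.mem_univ s)).trans hx
  refine ⟨fun s => ?_, ?_⟩
  · obtain ⟨a, s', rfl⟩ : ∃ (a : Fin 2) (s' : Fin n → Fin 2), s = Fin.cons a s' :=
      ⟨s 0, fun i => s i.succ, (Fin.cons_self_tail s).symm⟩
    by_cases ha : a = 0
    · subst ha; exact hI s'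
    · rw [e1 s' a ha]; simp
  · rw [sum_spin (n := n), Fin.sum_univ_two]
    have h1 : ∑ s : Fin n → Fin 2, ∫ z : Conf (n + 1), crossW z ^ 2 * (G (z 0) ^ 2 *
        ‖(pPart Φ Ψ).amp (Fin.cons 1 s) z‖ ^ 2) = 0 := by
      refine Finset.sum_eq_zero fun s _ => ?_
      rw [e1 s 1 (by decide)]
      simp
    rw [h1, add_zero, Finset.sum_congr rfl fun s _ => integral_cons (hI s),
      ← integral_finsetSum _ fun s _ => integrable_int_cons (hI s)]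
    exact integral_mono_ae (integrable_finsetSum _ fun s _ => integrable_int_cons (hI s)) hBi hle

/-- Pythagoras for the slices: the density minus the Dyson part. -/
theorem density_sub {Φ : ElectronState n} {Ψ : ElectronState (n + 1)} (hΦ : normSq Φ = 1)
    (hz : ∀ᵐ x, dyson Φ Ψ 1 x = 0) :
    ∀ᵐ x, density Ψ x - (n + 1 : ℝ) * ‖dyson Φ Ψ 0 x‖ ^ 2 =
      (n + 1 : ℝ) * ∑ s, ∫ y : Conf n, ‖(qPart Φ Ψ).amp s (Fin.cons x y)‖ ^ 2 := by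
  have hO := qPart_orth Φ Ψ hΦ hz
  have h1 : ∀ᵐ x : R3, ∀ s : Fin (n + 1) → Fin 2,
      Integrable (fun y : Conf n => ‖(qPart Φ Ψ).amp s (Fin.cons x y)‖ ^ 2) := by
    rw [ae_all_iff]; intro s
    exact ae_integrable_slice (((qPart Φ Ψ).amp_memLp s).integrable_norm_pow (by norm_num))
  have h2 : ∀ᵐ x : R3, ∀ s : Fin n → Fin 2,
      Integrable (fun y : Conf n => conj (Φ.amp s y) *
        (qPart Φ Ψ).amp (Fin.cons 0 s) (Fin.cons x y)) := by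
    rw [ae_all_iff]; intro s
    exact ae_int_contr (Φ.amp_memLp s) ((qPart Φ Ψ).amp_memLp _)
  filter_upwards [hO, h1, h2] with x hx h1x h2x
  set d := dysF Φ (fam Ψ) 0 x with hd
  have hdy : dyson Φ Ψ 0 x = d := rfl
  have i3 : ∀ s : Fin n → Fin 2, Integrable (fun y : Conf n => ‖Φ.amp s y‖ ^ 2) := fun s =>
    (Φ.amp_memLp s).integrable_norm_pow (by norm_num)
  have e0 : ∀ s : Fin n → Fin 2, ∫ y : Conf n, ‖Ψ.amp (Fin.cons 0 s) (Fin.cons x y)‖ ^ 2 =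
      (∫ y : Conf n, ‖(qPart Φ Ψ).amp (Fin.cons 0 s) (Fin.cons x y)‖ ^ 2) +
        ‖d‖ ^ 2 * (∫ y : Conf n, ‖Φ.amp s y‖ ^ 2) +
        2 * (conj d * ∫ y : Conf n, conj (Φ.amp s y) *
          (qPart Φ Ψ).amp (Fin.cons 0 s) (Fin.cons x y)).re := by
    intro s
    have i4 : Integrable (fun y : Conf n => conj d * (conj (Φ.amp s y) *
        (qPart Φ Ψ).amp (Fin.cons 0 s) (Fin.cons x y))) := (h2x s).const_mul _
    have i12 : Integrable (fun y : Conf n => ‖(qPart Φ Ψ).amp (Fin.cons 0 s) (Fin.cons x y)‖ ^ 2 +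
        ‖d‖ ^ 2 * ‖Φ.amp s y‖ ^ 2) := (h1x (Fin.cons 0 s)).add ((i3 s).const_mul _)
    have i5 : Integrable (fun y : Conf n => 2 * (conj d * (conj (Φ.amp s y) *
        (qPart Φ Ψ).amp (Fin.cons 0 s) (Fin.cons x y))).re) := i4.re.const_mul 2
    rw [← integral_const_mul, ← integral_const_mul, re_integral i4, ← integral_const_mul,
      ← integral_add (h1x (Fin.cons 0 s)) ((i3 s).const_mul _), ← integral_add i12 i5]
    congr 1
    funext y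
    have e : Ψ.amp (Fin.cons 0 s) (Fin.cons x y) =
        (qPart Φ Ψ).amp (Fin.cons 0 s) (Fin.cons x y) + d * Φ.amp s y := by
      rw [qPart_amp, if_pos rfl]
      ring
    rw [e]
    generalize (qPart Φ Ψ).amp (Fin.cons 0 s) (Fin.cons x y) = a
    generalize Φ.amp s y = b
    generalize d = c
    simp only [Complex.sq_norm, Complex.normSq_apply, Complex.mul_re,
      Complex.add_re, Complex.conj_re, Complex.conj_im, Complex.add_im, Complex.mul_im]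
    ring
  have e1 : ∀ s : Fin n → Fin 2, ∫ y : Conf n, ‖Ψ.amp (Fin.cons 1 s) (Fin.cons x y)‖ ^ 2 =
      ∫ y : Conf n, ‖(qPart Φ Ψ).amp (Fin.cons 1 s) (Fin.cons x y)‖ ^ 2 := by
    intro s
    congr 1
    funext y
    rw [qPart_amp, if_neg (by decide), sub_zero]
  have hdens : density Ψ x = (n + 1 : ℝ) * ∑ s, ∫ y : Conf n, ‖Ψ.amp s (Fin.cons x y)‖ ^ 2 := rfl
  have hsum : ∑ s, ∫ y : Conf n, ‖Ψ.amp s (Fin.cons x y)‖ ^ 2 =
      (∑ s, ∫ y : Conf n, ‖(qPart Φ Ψ).amp s (Fin.cons x y)‖ ^ 2) + ‖d‖ ^ 2 := by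
    rw [sum_spin (n := n), sum_spin (n := n) (fun s => ∫ y : Conf n,
      ‖(qPart Φ Ψ).amp s (Fin.cons x y)‖ ^ 2), Fin.sum_univ_two, Fin.sum_univ_two]
    simp only [e0, e1]
    rw [Finset.sum_add_distrib, Finset.sum_add_distrib, ← Finset.mul_sum, ← Finset.mul_sum,
      ← Complex.re_sum, ← Finset.mul_sum]
    have hn : ∑ s : Fin n → Fin 2, ∫ y : Conf n, ‖Φ.amp s y‖ ^ 2 = 1 := hΦ
    have ho : ∑ s : Fin n → Fin 2, ∫ y : Conf n, conj (Φ.amp s y) *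
        (qPart Φ Ψ).amp (Fin.cons 0 s) (Fin.cons x y) = 0 := hx 0
    rw [hn, ho]
    simp
    ring
  rw [hdens, hsum, hdy]
  ring

/-! ### the localisation function -/

/-- `χ e^{-k'⟨x-p⟩}` -/
def Gp (χ : R3 → ℝ) (k' : ℝ) (p x : R3) : ℝ := χ x * Ew k' p x

section gp

variable {χ : R3 → ℝ} (hχ : ContDiff ℝ ∞ χ) (hχ1 : ∀ x, |χ x| ≤ 1) {M : ℝ} (hM : 0 ≤ M)
  (hχM : ∀ (k : Fin 3) (x : R3), |fderiv ℝ χ x (e3 k)| ≤ M) {k' : ℝ} (hk' : 0 ≤ k') (p : R3)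

include hχ in
theorem Gp_contDiff : ContDiff ℝ ∞ (Gp χ k' p) := hχ.mul (Ew_contDiff k' p)

include hχ in
theorem Gp_fderiv (x v : R3) : fderiv ℝ (Gp χ k' p) x v =
    fderiv ℝ χ x v * Ew k' p x + χ x * fderiv ℝ (Ew k' p) x v := by
  have h1 : HasFDerivAt χ (fderiv ℝ χ x) x := (hχ.differentiable (by simp) x).hasFDerivAt
  have h2 : HasFDerivAt (Ew k' p) (fderiv ℝ (Ew k' p) x) x :=
    ((Ew_contDiff k' p).differentiable (by simp) x).hasFDerivAt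
  have h3 : HasFDerivAt (Gp χ k' p) _ x := h1.mul h2
  rw [h3.fderiv]
  simp
  ring

include hχ1 hM hk' in
theorem Gp_le (x : R3) : |Gp χ k' p x| ≤ 1 + M + k' := by
  unfold Gp
  rw [abs_mul, abs_of_pos (Ew_pos k' p x)]
  have h1 := hχ1 x
  have h2 := Ew_le_one hk' p x
  have h3 := Ew_pos k' p x
  nlinarith [abs_nonneg (χ x)]

include hχ hχ1 hM hχM hk' in
theorem Gp_fderiv_le (k : Fin 3) (x : R3) : |fderiv ℝ (Gp χ k' p) x (e3 k)| ≤ 1 + M + k' := by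
  rw [Gp_fderiv hχ]
  refine (abs_add_le _ _).trans ?_
  rw [abs_mul, abs_mul, abs_of_pos (Ew_pos k' p x)]
  have h1 := hχ1 x
  have h2 := Ew_le_one hk' p x
  have h3 := Ew_pos k' p x
  have h4 := hχM k x
  have h5 := Ew_fderiv_le hk' p x k
  have h6 : |fderiv ℝ χ x (e3 k)| * Ew k' p x ≤ M * 1 :=
    mul_le_mul h4 h2 h3.le hM
  have h7 : |χ x| * |fderiv ℝ (Ew k' p) x (e3 k)| ≤ 1 * k' :=
    mul_le_mul h1 h5 (abs_nonneg _) zero_le_one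
  linarith

include hχ hM hχM hk' in
theorem Gp_grad_le {R0 δ : ℝ} (hδ : 0 < δ)
    (hχ0 : ∀ (k : Fin 3) (x : R3), R0 + 1 < ‖x‖ → fderiv ℝ χ x (e3 k) = 0) (x : R3) :
    ∑ k : Fin 3, (fderiv ℝ (Gp χ k' p) x (e3 k)) ^ 2 ≤
      (1 + δ) * k' ^ 2 * Gp χ k' p x ^ 2 +
        (1 + 1 / δ) * (3 * M ^ 2) * (Real.exp (2 * k' * (R0 + 1)) * Real.exp (-(2 * k' * ‖p‖))) := by
  have h1 : ∀ k : Fin 3, (fderiv ℝ (Gp χ k' p) x (e3 k)) ^ 2 ≤
      (1 + δ) * (χ x ^ 2 * (fderiv ℝ (Ew k' p) x (e3 k)) ^ 2) +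
        (1 + 1 / δ) * (Ew k' p x ^ 2 * (fderiv ℝ χ x (e3 k)) ^ 2) := by
    intro k
    rw [Gp_fderiv hχ]
    generalize fderiv ℝ χ x (e3 k) = a
    generalize fderiv ℝ (Ew k' p) x (e3 k) = b
    generalize Ew k' p x = e
    generalize χ x = c
    have : (1 + δ) * (c ^ 2 * b ^ 2) + (1 + 1 / δ) * (e ^ 2 * a ^ 2) - (a * e + c * b) ^ 2 =
        (1 / δ) * (δ * (c * b) - a * e) ^ 2 := by
      field_simp
      ring
    have h2 : 0 ≤ (1 / δ) * (δ * (c * b) - a * e) ^ 2 := by positivity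
    linarith
  refine (Finset.sum_le_sum fun k _ => h1 k).trans ?_
  rw [Finset.sum_add_distrib, ← Finset.mul_sum, ← Finset.mul_sum, ← Finset.mul_sum,
    ← Finset.mul_sum]
  have h2 : (1 + δ) * (χ x ^ 2 * ∑ k : Fin 3, (fderiv ℝ (Ew k' p) x (e3 k)) ^ 2) ≤
      (1 + δ) * k' ^ 2 * Gp χ k' p x ^ 2 := by
    have h3 := mul_le_mul_of_nonneg_left (Ew_grad_le k' p x)
      (by positivity : 0 ≤ (1 + δ) * χ x ^ 2)
    unfold Gp
    calc (1 + δ) * (χ x ^ 2 * ∑ k : Fin 3, (fderiv ℝ (Ew k' p) x (e3 k)) ^ 2)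
        = (1 + δ) * χ x ^ 2 * ∑ k : Fin 3, (fderiv ℝ (Ew k' p) x (e3 k)) ^ 2 := by ring
      _ ≤ _ := h3
      _ = _ := by ring
  have h3 : Ew k' p x ^ 2 * ∑ k : Fin 3, (fderiv ℝ χ x (e3 k)) ^ 2 ≤
      (3 * M ^ 2) * (Real.exp (2 * k' * (R0 + 1)) * Real.exp (-(2 * k' * ‖p‖))) := by
    by_cases hx : R0 + 1 < ‖x‖
    · simp only [hχ0 _ x hx]
      simp
      positivity
    · push Not at hx
      have h4 : ∑ k : Fin 3, (fderiv ℝ χ x (e3 k)) ^ 2 ≤ 3 * M ^ 2 := by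
        have : ∀ k ∈ (Finset.univ : Finset (Fin 3)), (fderiv ℝ χ x (e3 k)) ^ 2 ≤ M ^ 2 := by
          intro k _
          rw [← sq_abs]
          exact pow_le_pow_left₀ (abs_nonneg _) (hχM k x) 2
        have h5 := Finset.sum_le_card_nsmul Finset.univ _ _ this
        simpa using h5
      have h5 : Ew k' p x ^ 2 ≤ Real.exp (2 * k' * (R0 + 1)) * Real.exp (-(2 * k' * ‖p‖)) := by
        refine (Ew_sq_le hk' p x).trans ?_
        rw [← Real.exp_add]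
        refine Real.exp_le_exp.2 ?_
        have h6 : ‖p‖ - ‖x‖ ≤ ‖x - p‖ := by
          rw [norm_sub_rev]; exact norm_sub_norm_le p x
        nlinarith [mul_le_mul_of_nonneg_left (show ‖p‖ - (R0 + 1) ≤ ‖x - p‖ by linarith) hk']
      calc Ew k' p x ^ 2 * ∑ k : Fin 3, (fderiv ℝ χ x (e3 k)) ^ 2
          ≤ (Real.exp (2 * k' * (R0 + 1)) * Real.exp (-(2 * k' * ‖p‖))) * (3 * M ^ 2) :=
            mul_le_mul h5 h4 (Finset.sum_nonneg fun _ _ => sq_nonneg _) (by positivity)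
        _ = _ := by ring
  have h4 := mul_le_mul_of_nonneg_left h3 (by positivity : 0 ≤ 1 + 1 / δ)
  linarith

end gp

/-- mass of the localised `Q`-part controls the `Q`-part near `p`. -/
theorem local_mass (u : PState n) {G : R3 → ℝ} (hG : ContDiff ℝ ∞ G) (C : ℝ)
    (hC : ∀ x, |G x| ≤ C) (hC' : ∀ k x, |fderiv ℝ G x (e3 k)| ≤ C) {p : R3} {c : ℝ}
    (hc : ∀ x ∈ ball p 2, c ≤ G x ^ 2) :
    IntegrableOn (fun x => ∑ s, ∫ y : Conf n, ‖u.amp s (Fin.cons x y)‖ ^ 2) (ball p 2) ∧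
    c * ∫ x in ball p 2, ∑ s, ∫ y : Conf n, ‖u.amp s (Fin.cons x y)‖ ^ 2 ≤
      (u.mulG G hG C hC hC').nsq := by
  have h0 : ∀ s, Integrable (fun z => ‖u.amp s z‖ ^ 2) := fun s =>
    (u.amp_memLp s).integrable_norm_pow (by norm_num)
  have hN : Integrable (fun x : R3 => ∑ s, ∫ y : Conf n, ‖u.amp s (Fin.cons x y)‖ ^ 2) :=
    integrable_finsetSum _ fun s _ => integrable_int_cons (h0 s)
  have h1 : ∀ s, Integrable (fun z => ‖(u.mulG G hG C hC hC').amp s z‖ ^ 2) := fun s =>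
    ((u.mulG G hG C hC hC').amp_memLp s).integrable_norm_pow (by norm_num)
  have e : ∀ (s : Fin (n + 1) → Fin 2) (x : R3), ∫ y : Conf n,
      ‖(u.mulG G hG C hC hC').amp s (Fin.cons x y)‖ ^ 2 =
      G x ^ 2 * ∫ y : Conf n, ‖u.amp s (Fin.cons x y)‖ ^ 2 := by
    intro s x
    rw [← integral_const_mul]
    congr 1
    funext y
    rw [mulG_amp, Fin.cons_zero, norm_mul, Complex.norm_real, mul_pow, Real.norm_eq_abs, sq_abs]
  have hN2 : Integrable (fun x : R3 => G x ^ 2 *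
      ∑ s, ∫ y : Conf n, ‖u.amp s (Fin.cons x y)‖ ^ 2) := by
    have : (fun x : R3 => G x ^ 2 * ∑ s, ∫ y : Conf n, ‖u.amp s (Fin.cons x y)‖ ^ 2) =
        fun x => ∑ s, ∫ y : Conf n, ‖(u.mulG G hG C hC hC').amp s (Fin.cons x y)‖ ^ 2 := by
      funext x
      simp only [e]
      rw [Finset.mul_sum]
    rw [this]
    exact integrable_finsetSum _ fun s _ => integrable_int_cons (h1 s)
  have hns : (u.mulG G hG C hC hC').nsq = ∫ x : R3, G x ^ 2 *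
      ∑ s, ∫ y : Conf n, ‖u.amp s (Fin.cons x y)‖ ^ 2 := by
    unfold PState.nsq
    rw [Finset.sum_congr rfl fun s _ => integral_cons (h1 s),
      ← integral_finsetSum _ fun s _ => integrable_int_cons (h1 s)]
    congr 1
    funext x
    simp only [e]
    rw [Finset.mul_sum]
  refine ⟨hN.integrableOn, ?_⟩
  rw [hns, ← integral_const_mul]
  have hnn : ∀ x : R3, 0 ≤ ∑ s, ∫ y : Conf n, ‖u.amp s (Fin.cons x y)‖ ^ 2 := fun x =>
    Finset.sum_nonneg fun s _ => integral_nonneg fun y => by positivity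
  calc ∫ x in ball p 2, c * ∑ s, ∫ y : Conf n, ‖u.amp s (Fin.cons x y)‖ ^ 2
      ≤ ∫ x in ball p 2, G x ^ 2 * ∑ s, ∫ y : Conf n, ‖u.amp s (Fin.cons x y)‖ ^ 2 :=
        setIntegral_mono_on (hN.const_mul c).integrableOn hN2.integrableOn measurableSet_ball
          fun x hx => mul_le_mul_of_nonneg_right (hc x hx) (hnn x)
    _ ≤ _ := setIntegral_le_integral hN2 (Eventually.of_forall fun x =>
        mul_nonneg (sq_nonneg _) (hnn x))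

/-- the Coulomb term of a localised state -/
theorem coul_mass (u : PState n) {G : R3 → ℝ} (hG : ContDiff ℝ ∞ G) (C : ℝ)
    (hC : ∀ x, |G x| ≤ C) (hC' : ∀ k x, |fderiv ℝ G x (e3 k)| ≤ C) {R0 : ℝ} (hR0 : 0 < R0)
    (hG0 : ∀ x, ‖x‖ ≤ R0 → G x = 0) :
    ∑ s, ∫ z, ‖(u.mulG G hG C hC hC').amp s z‖ ^ 2 / ‖z 0‖ ≤
      (1 / R0) * (u.mulG G hG C hC hC').nsq := by
  unfold PState.nsq
  rw [Finset.mul_sum]
  refine Finset.sum_le_sum fun s _ => ?_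
  rw [← integral_const_mul]
  refine integral_mono ((u.mulG G hG C hC hC').int_one s 0)
    ((((u.mulG G hG C hC hC').amp_memLp s).integrable_norm_pow (by norm_num)).const_mul _)
    fun z => ?_
  simp only
  by_cases hz0 : ‖z 0‖ ≤ R0
  · have : (u.mulG G hG C hC hC').amp s z = 0 := by rw [mulG_amp, hG0 _ hz0]; simp
    rw [this]; simp
  · push Not at hz0
    have h1 : 1 / ‖z 0‖ ≤ 1 / R0 := one_div_le_one_div_of_le (by linarith) hz0.le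
    rw [div_eq_mul_one_div, mul_comm]
    exact mul_le_mul_of_nonneg_right h1 (by positivity)

/-- the gradient term of a localised state -/
theorem grad_mass (u : PState n) {G : R3 → ℝ} (hG : ContDiff ℝ ∞ G) (C : ℝ)
    (hC : ∀ x, |G x| ≤ C) (hC' : ∀ k x, |fderiv ℝ G x (e3 k)| ≤ C) {a b : ℝ}
    (h : ∀ x, ∑ k : Fin 3, (fderiv ℝ G x (e3 k)) ^ 2 ≤ a * G x ^ 2 + b) :
    ∑ s, ∫ z, (∑ k, (fderiv ℝ G (z 0) (e3 k)) ^ 2) * ‖u.amp s z‖ ^ 2 ≤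
      a * (u.mulG G hG C hC hC').nsq + b * u.nsq := by
  have iv : ∀ s, Integrable (fun z => ‖(u.mulG G hG C hC hC').amp s z‖ ^ 2) := fun s =>
    ((u.mulG G hG C hC hC').amp_memLp s).integrable_norm_pow (by norm_num)
  have iD : ∀ s, Integrable (fun z => ‖u.amp s z‖ ^ 2) := fun s =>
    (u.amp_memLp s).integrable_norm_pow (by norm_num)
  unfold PState.nsq
  rw [Finset.mul_sum, Finset.mul_sum, ← Finset.sum_add_distrib]
  refine Finset.sum_le_sum fun s _ => ?_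
  rw [← integral_const_mul, ← integral_const_mul, ← integral_add ((iv s).const_mul _)
    ((iD s).const_mul _)]
  have ig : Integrable (fun z : Conf (n + 1) =>
      (∑ k, (fderiv ℝ G (z 0) (e3 k)) ^ 2) * ‖u.amp s z‖ ^ 2) := by
    have := integrable_finsetSum Finset.univ fun k _ => int_gradG u G hG C hC' s k
    refine this.congr (Eventually.of_forall fun z => ?_)
    simp [Finset.sum_mul]
  refine integral_mono ig (((iv s).const_mul _).add ((iD s).const_mul _)) fun z => ?_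
  simp only
  have h1 := h (z 0)
  have h2 : ‖(u.mulG G hG C hC hC').amp s z‖ ^ 2 = G (z 0) ^ 2 * ‖u.amp s z‖ ^ 2 := by
    rw [mulG_amp, norm_mul, Complex.norm_real, mul_pow, Real.norm_eq_abs, sq_abs]
  rw [h2]
  calc (∑ k, (fderiv ℝ G (z 0) (e3 k)) ^ 2) * ‖u.amp s z‖ ^ 2
      ≤ _ := mul_le_mul_of_nonneg_right h1 (by positivity)
    _ = _ := by ring

/-- pointwise bound of the source -/
theorem src_pt {χ : R3 → ℝ} (hχ1 : ∀ x, |χ x| ≤ 1) {R0 : ℝ} (hχin : ∀ x, ‖x‖ ≤ R0 → χ x = 0)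
    {k k' K s : ℝ} (hk' : 0 ≤ k') (hK : 0 ≤ K) (hKw : ∀ p x : R3, 1 ≤ ‖p‖ → 1 ≤ ‖x‖ →
      Real.exp (-(2 * k' * ‖x - p‖)) * (((Xf k s ‖x‖)⁻¹) ^ 2 / ‖x‖ ^ 8) * ‖x - p‖ ^ 2 ≤
        K * (((Xf k s ‖p‖)⁻¹) ^ 2 / ‖p‖ ^ 8) * Real.exp (-((k' - k) * ‖x - p‖)))
    {p : R3} (hp2 : p 2 = 0) (hp1 : 1 ≤ ‖p‖) {x : R3} (hx1 : 1 ≤ ‖x‖) {dx : ℂ} (C1 CB : ℝ)
    (hx : R0 < ‖x‖ → ‖dx‖ ≤ C1 * (Xf k s ‖x‖)⁻¹ / ‖x‖ ^ 2 * |x 2|) :
    Gp χ k' p x ^ 2 * ‖dx‖ ^ 2 * (CB / ‖x‖ ^ 2) ^ 2 ≤ C1 ^ 2 * CB ^ 2 * K *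
      (((Xf k s ‖p‖)⁻¹) ^ 2 / ‖p‖ ^ 8) * Real.exp (-((k' - k) * ‖x - p‖)) := by
  by_cases hxR : ‖x‖ ≤ R0
  · have h0 : Gp χ k' p x = 0 := by unfold Gp; rw [hχin x hxR, zero_mul]
    rw [h0]
    have : 0 ≤ C1 ^ 2 * CB ^ 2 * K * (((Xf k s ‖p‖)⁻¹) ^ 2 / ‖p‖ ^ 8) *
      Real.exp (-((k' - k) * ‖x - p‖)) := by positivity
    simpa using this
  · push Not at hxR
    have h1 := hx hxR
    have h2 : ‖dx‖ ^ 2 ≤ (C1 * (Xf k s ‖x‖)⁻¹ / ‖x‖ ^ 2 * |x 2|) ^ 2 :=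
      pow_le_pow_left₀ (norm_nonneg _) h1 2
    have h3 : |x 2| ^ 2 ≤ ‖x - p‖ ^ 2 := by
      have h4 : x 2 = (x - p) 2 := by simp [hp2]
      rw [h4]
      refine pow_le_pow_left₀ (abs_nonneg _) ?_ 2
      have h5 : ‖(x - p) 2‖ ≤ ‖x - p‖ := PiLp.norm_apply_le (x - p) 2
      simpa using h5
    have h5 : Gp χ k' p x ^ 2 ≤ Real.exp (-(2 * k' * ‖x - p‖)) := by
      unfold Gp
      rw [mul_pow]
      have h6 : χ x ^ 2 ≤ 1 := by
        rw [← sq_abs]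
        exact pow_le_one₀ (abs_nonneg _) (hχ1 x)
      calc χ x ^ 2 * Ew k' p x ^ 2 ≤ 1 * Ew k' p x ^ 2 :=
            mul_le_mul_of_nonneg_right h6 (by positivity)
        _ ≤ _ := by rw [one_mul]; exact Ew_sq_le hk' p x
    have h7 := hKw p x hp1 hx1
    have hx0 : 0 < ‖x‖ := by linarith
    calc Gp χ k' p x ^ 2 * ‖dx‖ ^ 2 * (CB / ‖x‖ ^ 2) ^ 2
        ≤ Real.exp (-(2 * k' * ‖x - p‖)) * (C1 * (Xf k s ‖x‖)⁻¹ / ‖x‖ ^ 2 * |x 2|) ^ 2 *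
          (CB / ‖x‖ ^ 2) ^ 2 := by gcongr
      _ = C1 ^ 2 * CB ^ 2 * (Real.exp (-(2 * k' * ‖x - p‖)) *
          (((Xf k s ‖x‖)⁻¹) ^ 2 / ‖x‖ ^ 8) * |x 2| ^ 2) := by
          field_simp
      _ ≤ C1 ^ 2 * CB ^ 2 * (Real.exp (-(2 * k' * ‖x - p‖)) *
          (((Xf k s ‖x‖)⁻¹) ^ 2 / ‖x‖ ^ 8) * ‖x - p‖ ^ 2) := by gcongr
      _ ≤ C1 ^ 2 * CB ^ 2 * (K * (((Xf k s ‖p‖)⁻¹) ^ 2 / ‖p‖ ^ 8) *
          Real.exp (-((k' - k) * ‖x - p‖))) := by gcongr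
      _ = _ := by ring

/-- scalar algebra of the final step -/
theorem final_alg {g k2 v cl gr cr Ae Se X : ℝ} (hg : 0 < g)
    (hq : (k2 / 2 + g) * v - cl ≤ (1 / 2) * gr - X) (hcl : cl ≤ g / 4 * v)
    (hgr : gr ≤ (k2 + g / 2) * v + 2 * Ae) (hcr : -X ≤ g / 4 * v + cr) (hS : cr ≤ Se) :
    v ≤ (4 / g) * (Ae + Se) := by
  have h1 : (g / 4) * v ≤ Ae + Se := by nlinarith
  have h2 : v = (4 / g) * ((g / 4) * v) := by field_simp
  rw [h2]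
  exact mul_le_mul_of_nonneg_left h1 (by positivity)

/-- the mass of the localised `Q`-part. -/
theorem q_mass {lam : ℝ} (hlam : 0 ≤ lam) {Φ : ElectronState n} {Ψ : ElectronState (n + 1)}
    (hΦ : IsGroundState (pot lam) Φ) (hΨ : IsGroundState (pot lam) Ψ)
    (hz : ∀ᵐ x, dyson Φ Ψ 1 x = 0) {g : ℝ} (hg : 0 < g)
    (hgap : ∀ χ : ElectronState n, inn Φ χ = 0 →
      (energy (pot lam) Φ + g) * normSq χ ≤ energy (pot lam) χ) {CB : ℝ} (hB : MultB Φ CB)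
    {k2 : ℝ} (hk2 : k2 = 2 * (energy (pot lam) Φ - energy (pot lam) Ψ))
    {R0 : ℝ} (hR01 : 1 ≤ R0) (hR0g : 1 / R0 ≤ g / 4)
    (G : R3 → ℝ) (hG : ContDiff ℝ ∞ G) (C : ℝ) (hC : ∀ x, |G x| ≤ C)
    (hC' : ∀ k x, |fderiv ℝ G x (e3 k)| ≤ C) (hG0 : ∀ x, ‖x‖ ≤ R0 → G x = 0) {b : ℝ}
    (hgr : ∀ x, ∑ k : Fin 3, (fderiv ℝ G x (e3 k)) ^ 2 ≤ (k2 + g / 2) * G x ^ 2 + b)
    {B : R3 → ℝ} (hBi : Integrable B)
    (hGB : ∀ᵐ x, 1 ≤ ‖x‖ → G x ^ 2 * ‖dyson Φ Ψ 0 x‖ ^ 2 * (CB / ‖x‖ ^ 2) ^ 2 ≤ B x)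
    (hB0 : ∀ x, 0 ≤ B x) :
    ((qPart Φ Ψ).mulG G hG C hC hC').nsq ≤
      (4 / g) * ((1 / 2) * (b * (qPart Φ Ψ).nsq) + lam ^ 2 / g * ∫ x, B x) := by
  have hsrc := source_le (Φ := Φ) (Ψ := Ψ) hB (G := G) hG.continuous
    (fun x hx => hG0 x (by linarith)) hBi hGB hB0
  have hq := q_energy hlam hΦ hΨ hz hgap G hG C hC hC'
  have hcr := cross_le (Φ := Φ) (Ψ := Ψ) G hG C hC hC' (lam := lam) (η := g / 2)
    (by positivity) hsrc.1
  have hcoul := coul_mass (qPart Φ Ψ) hG C hC hC' (by linarith : 0 < R0) hG0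
  have hgm := grad_mass (qPart Φ Ψ) hG C hC hC' hgr
  have hvn : 0 ≤ ((qPart Φ Ψ).mulG G hG C hC hC').nsq :=
    Finset.sum_nonneg fun s _ => integral_nonneg fun z => by positivity
  have hSe : lam ^ 2 / (2 * (g / 2)) * ∑ s, ∫ z, crossW z ^ 2 *
      (G (z 0) ^ 2 * ‖(pPart Φ Ψ).amp s z‖ ^ 2) ≤ lam ^ 2 / g * ∫ x, B x := by
    rw [show 2 * (g / 2) = g by ring]
    exact mul_le_mul_of_nonneg_left hsrc.2 (by positivity)
  have e1 : energy (pot lam) Φ - energy (pot lam) Ψ + g = k2 / 2 + g := by rw [hk2]; ring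
  rw [e1] at hq
  refine final_alg hg hq (hcoul.trans (mul_le_mul_of_nonneg_right hR0g hvn)) (hgm.trans ?_) ?_ hSe
  · exact le_of_eq (by ring)
  · rw [show g / 2 / 2 = g / 4 by ring] at hcr
    exact hcr

/-- B5.6, for general `n`. -/
theorem q_small_gen {lam : ℝ} (hlam : 0 ≤ lam) {Φ : ElectronState n} {Ψ : ElectronState (n + 1)}
    (hΦ : IsGroundState (pot lam) Φ) (hΨ : IsGroundState (pot lam) Ψ)
    (hz : ∀ᵐ x, dyson Φ Ψ 1 x = 0) {g : ℝ} (hg : 0 < g)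
    (hgap : ∀ χ : ElectronState n, inn Φ χ = 0 →
      (energy (pot lam) Φ + g) * normSq χ ≤ energy (pot lam) χ) {CB : ℝ} (hB : MultB Φ CB)
    {k s C1 R : ℝ} (hk : 0 ≤ k) (hk2 : k ^ 2 = 2 * (energy (pot lam) Φ - energy (pot lam) Ψ))
    (hR : 1 ≤ R) (hup : ∀ᵐ x, R ≤ ‖x‖ →
      ‖dyson Φ Ψ 0 x‖ ≤ C1 * (Xf k s ‖x‖)⁻¹ / ‖x‖ ^ 2 * |x 2|) :
    ∃ C R', ∀ p : R3, p 2 = 0 → R' ≤ ‖p‖ →
      IntegrableOn (fun x => density Ψ x - (n + 1 : ℝ) * ‖dyson Φ Ψ 0 x‖ ^ 2) (ball p 2) ∧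
      ∫ x in ball p 2, (density Ψ x - (n + 1 : ℝ) * ‖dyson Φ Ψ 0 x‖ ^ 2) ≤
        C / ‖p‖ ^ 8 * ((Xf k s ‖p‖)⁻¹) ^ 2 := by
  -- constants
  obtain ⟨R0, hRR0, hR01, hR0g⟩ : ∃ R0 : ℝ, R ≤ R0 ∧ 1 ≤ R0 ∧ 1 / R0 ≤ g / 4 := by
    refine ⟨max R (4 / g), le_max_left _ _, hR.trans (le_max_left _ _), ?_⟩
    have h : 4 / g ≤ max R (4 / g) := le_max_right _ _
    have h1 : 1 ≤ max R (4 / g) := hR.trans (le_max_left _ _)
    rw [div_le_iff₀ (by linarith)]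
    rw [div_le_iff₀ hg] at h
    nlinarith
  obtain ⟨k', hk'0, hkk, hk'2⟩ : ∃ k' : ℝ, 0 ≤ k' ∧ k < k' ∧ k' ^ 2 = k ^ 2 + g / 4 :=
    ⟨Real.sqrt (k ^ 2 + g / 4), Real.sqrt_nonneg _, Real.lt_sqrt_of_sq_lt (by linarith),
      Real.sq_sqrt (by positivity)⟩
  have hk'pos : 0 < k' := lt_of_le_of_lt hk hkk
  obtain ⟨δ, hδ0, hδk⟩ : ∃ δ : ℝ, 0 < δ ∧ (1 + δ) * k' ^ 2 = k ^ 2 + g / 2 := by
    refine ⟨(g / 4) / k' ^ 2, by positivity, ?_⟩
    have : (g / 4) / k' ^ 2 * k' ^ 2 = g / 4 := by field_simp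
    rw [add_mul, one_mul, this, hk'2]; ring
  obtain ⟨χ, hχ, hχ1, hχin, hχout, M, hM, hχM, hχ0⟩ := exists_cut (R := R0) (by linarith)
  obtain ⟨K, hK, hKw⟩ := weight_main s hk hkk
  obtain ⟨K2, hK2, hK2w⟩ := weight_far (k := k) s hkk
  have hDn : 0 ≤ (qPart Φ Ψ).nsq :=
    Finset.sum_nonneg fun s _ => integral_nonneg fun z => by positivity
  refine ⟨(n + 1) * Real.exp (6 * k') * ((4 / g) * ((1 / 2) * (((1 + 1 / δ) * (3 * M ^ 2) *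
    Real.exp (2 * k' * (R0 + 1))) * (qPart Φ Ψ).nsq) * K2 + lam ^ 2 / g * (C1 ^ 2 * CB ^ 2 * K *
      ∫ x : R3, Real.exp (-((k' - k) * ‖x‖))))), R0 + 3, fun p hp2 hpR => ?_⟩
  have hp1 : 1 ≤ ‖p‖ := by linarith
  have hG0 : ∀ x, ‖x‖ ≤ R0 → Gp χ k' p x = 0 := fun x hx => by
    unfold Gp; rw [hχin x hx, zero_mul]
  have hmass := q_mass hlam hΦ hΨ hz hg hgap hB (k2 := k ^ 2) hk2 hR01 hR0g (Gp χ k' p)
    (Gp_contDiff hχ p) (1 + M + k') (Gp_le hχ1 hM hk'0 p) (Gp_fderiv_le hχ hχ1 hM hχM hk'0 p) hG0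
    (b := (1 + 1 / δ) * (3 * M ^ 2) * (Real.exp (2 * k' * (R0 + 1)) * Real.exp (-(2 * k' * ‖p‖))))
    (fun x => by
      have := Gp_grad_le hχ hM hχM hk'0 p hδ0 hχ0 x
      rw [hδk] at this
      exact this)
    (B := fun x => C1 ^ 2 * CB ^ 2 * K * (((Xf k s ‖p‖)⁻¹) ^ 2 / ‖p‖ ^ 8) *
      Real.exp (-((k' - k) * ‖x - p‖)))
    ((integrable_exp_shift (sub_pos.2 hkk) p).const_mul _)
    (by
      filter_upwards [hup] with x hx hx1
      exact src_pt hχ1 hχin hk'0 hK hKw hp2 hp1 hx1 C1 CB fun h => hx (hRR0.trans h.le))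
    (fun x => by positivity)
  rw [integral_const_mul, integral_exp_shift] at hmass
  have hW0 : 0 ≤ ((Xf k s ‖p‖)⁻¹) ^ 2 / ‖p‖ ^ 8 := by positivity
  have hexp := hK2w ‖p‖ hp1
  -- conclusion
  obtain ⟨iN, hN⟩ := local_mass (qPart Φ Ψ) (Gp_contDiff hχ p) (1 + M + k')
    (Gp_le hχ1 hM hk'0 p) (Gp_fderiv_le hχ hχ1 hM hχM hk'0 p) (p := p)
    (c := Real.exp (-(6 * k'))) (by
    intro x hx
    have hx2 : ‖x - p‖ ≤ 2 := by
      have := mem_ball.1 hx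
      rw [dist_eq_norm] at this
      exact this.le
    have h1 : ‖p‖ - ‖x‖ ≤ ‖x - p‖ := by
      rw [norm_sub_rev]; exact norm_sub_norm_le p x
    have h2 : χ x = 1 := hχout x (by linarith)
    unfold Gp
    rw [h2, one_mul]
    exact Ew_sq_ge hk'0 hx2)
  have hds := density_sub (Φ := Φ) (Ψ := Ψ) hΦ.1 hz
  have hds' : ∀ᵐ x ∂(volume.restrict (ball p 2)),
      density Ψ x - (n + 1 : ℝ) * ‖dyson Φ Ψ 0 x‖ ^ 2 =
      (n + 1 : ℝ) * ∑ s, ∫ y : Conf n, ‖(qPart Φ Ψ).amp s (Fin.cons x y)‖ ^ 2 :=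
    ae_restrict_of_ae hds
  refine ⟨(iN.const_mul (n + 1 : ℝ)).congr (hds'.mono fun x hx => hx.symm), ?_⟩
  rw [integral_congr_ae hds', integral_const_mul]
  have h1 : Real.exp (6 * k') * (Real.exp (-(6 * k')) *
      ∫ x in ball p 2, ∑ s, ∫ y : Conf n, ‖(qPart Φ Ψ).amp s (Fin.cons x y)‖ ^ 2) =
      ∫ x in ball p 2, ∑ s, ∫ y : Conf n, ‖(qPart Φ Ψ).amp s (Fin.cons x y)‖ ^ 2 := by
    rw [← mul_assoc, ← Real.exp_add]
    simp
  have hfin := mul_le_mul_of_nonneg_left (hN.trans hmass) (Real.exp_pos (6 * k')).le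
  rw [h1] at hfin
  calc (n + 1 : ℝ) * ∫ x in ball p 2, ∑ s, ∫ y : Conf n,
        ‖(qPart Φ Ψ).amp s (Fin.cons x y)‖ ^ 2
      ≤ _ := mul_le_mul_of_nonneg_left hfin (by positivity)
    _ ≤ (n + 1 : ℝ) * (Real.exp (6 * k') * ((4 / g) * ((1 / 2) * (((1 + 1 / δ) * (3 * M ^ 2) *
        (Real.exp (2 * k' * (R0 + 1)) * (K2 * (((Xf k s ‖p‖)⁻¹) ^ 2 / ‖p‖ ^ 8)))) *
        (qPart Φ Ψ).nsq) + lam ^ 2 / g * (C1 ^ 2 * CB ^ 2 * K *
        (((Xf k s ‖p‖)⁻¹) ^ 2 / ‖p‖ ^ 8) * ∫ x : R3, Real.exp (-((k' - k) * ‖x‖)))))) := by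
        gcongr
    _ = _ := by ring

/-- B5.6 for the atom (given the multipole bound B5.3). -/
theorem q_small_of {κ lam ε : ℝ} (hl : 0 < lam) (hε : ε ≤ 1 / 16) {Φ : ElectronState 4}
    {Ψ : ElectronState 5} (P : AtomPair κ lam ε Φ Ψ) {CB : ℝ}
    (hB : ∀ x : R3, 1 ≤ ‖x‖ →
      (∀ s, Integrable fun y : Conf 4 => (mult x y) ^ 2 * ‖Φ.amp s y‖ ^ 2) ∧
        ∑ s, ∫ y : Conf 4, (mult x y) ^ 2 * ‖Φ.amp s y‖ ^ 2 ≤ (CB / ‖x‖ ^ 2) ^ 2)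
    {c1 C1 R : ℝ} (T : TwoSided (kOf lam Φ Ψ) (sOf lam Φ Ψ) c1 C1 R (dyson Φ Ψ 0)) :
    ∃ C R', QSmall (kOf lam Φ Ψ) (sOf lam Φ Ψ) C R' (dyson Φ Ψ 0) (density Ψ) := by
  obtain ⟨g, hg, hgap⟩ := P.gap
  have hE : 0 ≤ 2 * (energy (pot lam) Φ - energy (pot lam) Ψ) := by
    have h4 := abs_le.1 P.E4
    have h5 := abs_le.1 P.E5
    linarith [h4.1, h5.2]
  have hB' : MultB Φ CB := by
    intro x hx
    have e : ∀ y : Conf 4, crossW (Fin.cons x y : Conf 5) = mult x y := by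
      intro y
      unfold crossW mult
      simp only [Fin.cons_zero, Fin.cons_succ]
      push_cast
      ring
    simp only [e]
    exact hB x hx
  obtain ⟨C, R', h⟩ := q_small_gen hl.le P.gsΦ P.gsΨ P.zero hg hgap hB' (k := kOf lam Φ Ψ)
    (s := sOf lam Φ Ψ) (Real.sqrt_nonneg _) (Real.sq_sqrt hE) T.hR T.upper
  refine ⟨C, R', fun p hp hpR => ?_⟩
  have h1 := h p hp hpR
  have e : ((4 : ℕ) : ℝ) + 1 = 5 := by norm_num
  rw [e] at h1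
  exact h1

end

end Vale.Agent.P363.R801
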