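import Vale.Agent.P363.R801.H2
import Vale.Agent.P363.R2.h518.StarN

/-! Lower bound `E0 N * normSq Ψ ≤ energy (pot lam) Ψ` (in particular `-9/8` for three electrons). -/

namespace Vale.Agent.P363.R801

open MeasureTheory Filter Topology
open Vale.Agent.P363.Stmt
open Vale.Agent.P363.H382
open Vale.Agent.P363.H518
open Vale.Agent.P363.R.Sob
open Vale.Agent.P363.R.Top
open scoped ContDiff ENNReal ComplexConjugate

set_option linter.unusedSectionVars false

noncomputable section

variable {N : ℕ}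

theorem es_int_one (Ψ : ElectronState N) (s : Fin N → Fin 2) (i : Fin N) :
    Integrable (fun x : Conf N => ‖x i‖⁻¹ * ‖Ψ.amp s x‖ ^ 2) := by
  have h := R801.int_one (Ψ.amp_memLp s) (Ψ.grad_memLp s)
    (fun i k => isWeakDeriv_iff.1 (Ψ.grad_weak s i k)) i
  refine h.congr (Eventually.of_forall fun x => ?_)
  simp only [div_eq_mul_inv]
  ring

theorem es_int_two (Ψ : ElectronState N) (s : Fin N → Fin 2) {i j : Fin N} (hij : i ≠ j) :
    Integrable (fun x : Conf N => ‖Ψ.amp s x‖ ^ 2 / ‖x i - x j‖) :=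
  R801.int_two (Ψ.amp_memLp s) (Ψ.grad_memLp s)
    (fun i k => isWeakDeriv_iff.1 (Ψ.grad_weak s i k)) hij

theorem es_int_rep (Ψ : ElectronState N) (s : Fin N → Fin 2) :
    Integrable (fun x : Conf N => rep x * ‖Ψ.amp s x‖ ^ 2) := by
  have : (fun x : Conf N => rep x * ‖Ψ.amp s x‖ ^ 2) =
      fun x => ∑ i : Fin N, ∑ k ∈ Finset.Ioi i, ‖Ψ.amp s x‖ ^ 2 / ‖x i - x k‖ := by
    funext x
    unfold rep
    rw [Finset.sum_mul]
    refine Finset.sum_congr rfl fun i _ => ?_
    rw [Finset.sum_mul]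
    exact Finset.sum_congr rfl fun k _ => by ring
  rw [this]
  refine integrable_finsetSum _ fun i _ => integrable_finsetSum _ fun k hk => ?_
  exact es_int_two Ψ s (ne_of_lt (Finset.mem_Ioi.1 hk))

theorem es_int_pot (lam : ℝ) (Ψ : ElectronState N) (s : Fin N → Fin 2) :
    Integrable (fun x : Conf N => pot lam x * ‖Ψ.amp s x‖ ^ 2) := by
  have : (fun x : Conf N => pot lam x * ‖Ψ.amp s x‖ ^ 2) =
      fun x => (∑ i : Fin N, -(‖x i‖⁻¹ * ‖Ψ.amp s x‖ ^ 2)) +
        lam * (rep x * ‖Ψ.amp s x‖ ^ 2) := by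
    funext x
    unfold pot
    rw [add_mul, Finset.sum_mul]
    congr 1
    · exact Finset.sum_congr rfl fun i _ => by rw [one_div]; ring
    · ring
  rw [this]
  exact (integrable_finsetSum _ fun i _ => (es_int_one Ψ s i).neg).add
    ((es_int_rep Ψ s).const_mul lam)

/-- expectation of the electron repulsion -/
def repE (Ψ : ElectronState N) : ℝ := ∑ s, ∫ x, rep x * ‖Ψ.amp s x‖ ^ 2

theorem rep_nonneg (x : Conf N) : 0 ≤ rep x :=
  Finset.sum_nonneg fun i _ => Finset.sum_nonneg fun k _ => by positivity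

theorem repE_nonneg (Ψ : ElectronState N) : 0 ≤ repE Ψ :=
  Finset.sum_nonneg fun s _ => integral_nonneg fun x => mul_nonneg (rep_nonneg x) (by positivity)

theorem energy_pot (lam : ℝ) (Ψ : ElectronState N) :
    energy (pot lam) Ψ = energy (pot 0) Ψ + lam * repE Ψ := by
  unfold energy repE
  simp only [intR_eq]
  have : ∀ s, ∫ x, pot lam x * ‖Ψ.amp s x‖ ^ 2 =
      (∫ x, pot 0 x * ‖Ψ.amp s x‖ ^ 2) + lam * ∫ x, rep x * ‖Ψ.amp s x‖ ^ 2 := by
    intro s
    rw [← integral_const_mul, ← integral_add (es_int_pot 0 Ψ s) ((es_int_rep Ψ s).const_mul lam)]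
    congr 1
    funext x
    unfold pot
    ring
  simp only [this]
  rw [Finset.sum_add_distrib, ← Finset.mul_sum]
  ring

/-- monotonicity of the energy in `lam` -/
theorem energy_pot_le {lam : ℝ} (hlam : 0 ≤ lam) (Ψ : ElectronState N) :
    energy (pot 0) Ψ ≤ energy (pot lam) Ψ := by
  have h := energy_pot lam Ψ
  have := mul_nonneg hlam (repE_nonneg Ψ)
  linarith

/-- Bessel -/
theorem pSq_le (H : Hydro) (Ψ : ElectronState N) : pSq Ψ ≤ normSq Ψ := by
  classical
  obtain ⟨κ, hκ, u, hu, hul⟩ := exists_isONB_extension (μ := (volume : Measure R3)) corb H.mem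
    H.one H.orth
  rw [← tsum_good hul Ψ]
  unfold normSq
  refine Finset.sum_le_sum fun s _ => ?_
  have hf : MemLp (Ψ.amp s) 2 (volume : Measure (Conf N)) := Ψ.amp_memLp s
  have hS := summable_cI hu hf
  rw [intR_eq, ← hS.tsum_eq]
  have hG : Summable (fun I => if good I then ‖cI u (Ψ.amp s) I‖ ^ 2 else 0) := by
    apply Summable.of_nonneg_of_le _ _ hS.summable
    · intro I; split_ifs <;> positivity
    · intro I; split_ifs
      · exact le_rfl
      · positivity
  refine hG.tsum_le_tsum (fun I => ?_) hS.summable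
  split_ifs
  · exact le_rfl
  · positivity

theorem normSq_nonneg (Ψ : ElectronState N) : 0 ≤ normSq Ψ :=
  Finset.sum_nonneg fun s _ => integral_nonneg fun x => by positivity

theorem energy_zero_ge (H : Hydro) (Ψ : ElectronState N) :
    E0 N * normSq Ψ ≤ energy (pot 0) Ψ := by
  have h1 := star H Ψ (fun s i => es_int_one Ψ s i)
  have h2 := pSq_le H Ψ
  linarith

/-- `E0 N = -1 - (N-2)/8` is a lower bound of the energy per squared norm. -/
theorem energy_ge (H : Hydro) {lam : ℝ} (hlam : 0 ≤ lam) (Ψ : ElectronState N) :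
    E0 N * normSq Ψ ≤ energy (pot lam) Ψ :=
  (energy_zero_ge H Ψ).trans (energy_pot_le hlam Ψ)

/-- three electrons (doubly charged ion). -/
theorem energy_ge_three (H : Hydro) {lam : ℝ} (hlam : 0 ≤ lam) (Ψ : ElectronState 3) :
    -(9 / 8) * normSq Ψ ≤ energy (pot lam) Ψ := by
  have h := energy_ge H hlam Ψ
  have e : E0 3 = -(9 / 8) := by unfold E0; norm_num
  rwa [e] at h

end

end Vale.Agent.P363.R801
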