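import Vale.Agent.P363.R801.Slice
import Vale.Agent.P363.H943.DensClose

/-! States of `n+1` electrons that are antisymmetric in the electrons `1, …, n` only; their
slices at fixed position and spin of electron `0`; slice inequality (h2). -/

namespace Vale.Agent.P363.R801

open MeasureTheory Filter Topology
open Vale.Agent.P363.Stmt
open Vale.Agent.P363.H382
open Vale.Agent.P363.H943
open Vale.Agent.P363.R.Sob
open Vale.Agent.P363.R.Top
open scoped ContDiff ENNReal ComplexConjugate

set_option linter.unusedSectionVars false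

noncomputable section

/-- A state of `n+1` electrons with finite kinetic energy, antisymmetric in the electrons
`1, …, n`. -/
structure PState (n : ℕ) where
  amp : (Fin (n + 1) → Fin 2) → Conf (n + 1) → ℂ
  grad : (Fin (n + 1) → Fin 2) → Fin (n + 1) → Fin 3 → Conf (n + 1) → ℂ
  amp_memLp : ∀ s, MemLp (amp s) 2 volume
  grad_memLp : ∀ s i k, MemLp (grad s i k) 2 volume
  grad_wd : ∀ s i k, IsWD volume (dir i k) (amp s) (grad s i k)
  antisymm : ∀ (σ : Equiv.Perm (Fin n)) (a : Fin 2) (s : Fin n → Fin 2),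
    ∀ᵐ p : R3 × Conf n, amp (Fin.cons a (s ∘ σ)) (Fin.cons p.1 (p.2 ∘ σ)) =
      ((Equiv.Perm.sign σ : ℤ) : ℂ) * amp (Fin.cons a s) (Fin.cons p.1 p.2)

variable {n : ℕ}

theorem consE_dir (i : Fin n) (k : Fin 3) :
    consE ((0 : R3), (dir i k : Conf n)) = dir i.succ k := by
  funext j
  refine Fin.cases ?_ (fun j => ?_) j
  · simp [dir, Ne.symm (Fin.succ_ne_zero i)]
  · by_cases h : j = i
    · subst h; simp [dir]
    · have h' : j.succ ≠ i.succ := fun hh => h (Fin.succ_injective _ hh)
      simp [dir, h, h']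

theorem consE_dir_zero (k : Fin 3) :
    consE ((e3 k : R3), (0 : Conf n)) = dir 0 k := by
  funext j
  refine Fin.cases ?_ (fun j => ?_) j
  · simp [dir]
  · simp [dir, Fin.succ_ne_zero]

/-- `χ` is the slice of `u` at the position `x` and spin `a` of electron `0`. -/
def IsSlice (u : PState n) (x : R3) (a : Fin 2) (χ : ElectronState n) : Prop :=
  (∀ s, χ.amp s = fun y => u.amp (Fin.cons a s) (Fin.cons x y)) ∧
    ∀ s i k, χ.grad s i k = fun y => u.grad (Fin.cons a s) (Fin.succ i) k (Fin.cons x y)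

theorem memLp_consE {f : Conf (n + 1) → ℂ} (hf : MemLp f 2 volume) :
    MemLp (fun p : R3 × Conf n => f (consE p)) 2 ((volume : Measure R3).prod volume) :=
  hf.comp_measurePreserving consE_mp

/-- SL2: almost every slice is an electron state. -/
theorem PState.slice (u : PState n) : ∀ᵐ x : R3, ∀ a : Fin 2, ∃ χ : ElectronState n,
    IsSlice u x a χ := by
  have h1 : ∀ᵐ x : R3, ∀ (a : Fin 2) (s : Fin n → Fin 2),
      MemLp (fun y : Conf n => u.amp (Fin.cons a s) (Fin.cons x y)) 2 volume := by
    rw [ae_all_iff]; intro a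
    rw [ae_all_iff]; intro s
    exact memLp_slice (memLp_consE (u.amp_memLp (Fin.cons a s)))
  have h2 : ∀ᵐ x : R3, ∀ (a : Fin 2) (s : Fin n → Fin 2) (i : Fin n) (k : Fin 3),
      MemLp (fun y : Conf n => u.grad (Fin.cons a s) i.succ k (Fin.cons x y)) 2 volume := by
    rw [ae_all_iff]; intro a
    rw [ae_all_iff]; intro s
    rw [ae_all_iff]; intro i
    rw [ae_all_iff]; intro k
    exact memLp_slice (memLp_consE (u.grad_memLp (Fin.cons a s) i.succ k))
  have h3 : ∀ᵐ x : R3, ∀ (a : Fin 2) (s : Fin n → Fin 2) (i : Fin n) (k : Fin 3),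
      IsWD volume (dir i k) (fun y : Conf n => u.amp (Fin.cons a s) (Fin.cons x y))
        (fun y : Conf n => u.grad (Fin.cons a s) i.succ k (Fin.cons x y)) := by
    rw [ae_all_iff]; intro a
    rw [ae_all_iff]; intro s
    rw [ae_all_iff]; intro i
    rw [ae_all_iff]; intro k
    refine IsWD.slice (memLp_consE (u.amp_memLp (Fin.cons a s)))
      (memLp_consE (u.grad_memLp (Fin.cons a s) i.succ k)) ?_
    refine isWD_comp_equiv consE consE_mp ?_
    rw [consE_dir]
    exact u.grad_wd (Fin.cons a s) i.succ k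
  have h4 : ∀ᵐ x : R3, ∀ (a : Fin 2) (s : Fin n → Fin 2) (σ : Equiv.Perm (Fin n)),
      ∀ᵐ y : Conf n, u.amp (Fin.cons a (s ∘ σ)) (Fin.cons x (y ∘ σ)) =
        ((Equiv.Perm.sign σ : ℤ) : ℂ) * u.amp (Fin.cons a s) (Fin.cons x y) := by
    rw [ae_all_iff]; intro a
    rw [ae_all_iff]; intro s
    rw [ae_all_iff]; intro σ
    exact Measure.ae_ae_of_ae_prod (u.antisymm σ a s)
  filter_upwards [h1, h2, h3, h4] with x a1 a2 a3 a4 a
  refine ⟨{ amp := fun s y => u.amp (Fin.cons a s) (Fin.cons x y)
            grad := fun s i k y => u.grad (Fin.cons a s) i.succ k (Fin.cons x y)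
            amp_memLp := fun s => a1 a s
            grad_memLp := fun s i k => a2 a s i k
            grad_weak := fun s i k => isWeakDeriv_iff.2 (a3 a s i k)
            antisymm := fun σ s => a4 a s σ }, fun s => rfl, fun s i k => rfl⟩

/-- sums over the spins of `n+1` electrons -/
theorem sum_spin {M : Type*} [AddCommMonoid M] (F : (Fin (n + 1) → Fin 2) → M) :
    ∑ s, F s = ∑ a : Fin 2, ∑ s : Fin n → Fin 2, F (Fin.cons a s) := by
  rw [← Fintype.sum_prod_type' (f := fun (a : Fin 2) (s : Fin n → Fin 2) => F (Fin.cons a s))]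
  exact (Fintype.sum_equiv (Fin.consEquiv (fun _ : Fin (n + 1) => Fin 2)) _ _ (fun p => rfl)).symm

/-- (h2), general form: an energy inequality for the slices gives an inequality for the state. -/
theorem PState.energy_slices (u : PState n) (w : Conf n → ℝ) (E : ℝ) (P : ElectronState n → Prop)
    (hE : ∀ χ : ElectronState n, P χ → E * normSq χ ≤ energy w χ)
    (hP : ∀ᵐ x : R3, ∀ (a : Fin 2) (χ : ElectronState n), IsSlice u x a χ → P χ)
    (hw : ∀ s, Integrable (fun z : Conf (n + 1) => w (fun i => z i.succ) * ‖u.amp s z‖ ^ 2)) :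
    E * ∑ s, ∫ z, ‖u.amp s z‖ ^ 2 ≤
      (1 / 2) * (∑ s, ∑ i : Fin n, ∑ k, ∫ z, ‖u.grad s i.succ k z‖ ^ 2) +
        ∑ s, ∫ z, w (fun i => z i.succ) * ‖u.amp s z‖ ^ 2 := by
  have iamp : ∀ s, Integrable (fun z => ‖u.amp s z‖ ^ 2) := fun s =>
    (u.amp_memLp s).integrable_norm_pow (by norm_num)
  have igrad : ∀ s i k, Integrable (fun z => ‖u.grad s i k z‖ ^ 2) := fun s i k =>
    (u.grad_memLp s i k).integrable_norm_pow (by norm_num)
  -- for each spin of electron `0`
  have key : ∀ a : Fin 2, E * ∑ s : Fin n → Fin 2, ∫ z, ‖u.amp (Fin.cons a s) z‖ ^ 2 ≤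
      (1 / 2) * (∑ s : Fin n → Fin 2, ∑ i : Fin n, ∑ k, ∫ z, ‖u.grad (Fin.cons a s) i.succ k z‖ ^ 2) +
        ∑ s : Fin n → Fin 2, ∫ z, w (fun i => z i.succ) * ‖u.amp (Fin.cons a s) z‖ ^ 2 := by
    intro a
    -- write everything as integrals over `x`
    have e1 : E * ∑ s : Fin n → Fin 2, ∫ z, ‖u.amp (Fin.cons a s) z‖ ^ 2 =
        ∫ x : R3, E * ∑ s : Fin n → Fin 2, ∫ y : Conf n,
          ‖u.amp (Fin.cons a s) (Fin.cons x y)‖ ^ 2 := by
      rw [integral_const_mul, integral_finsetSum]
      · congr 1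
        exact Finset.sum_congr rfl fun s _ => (integrable_slice (iamp _)).2.symm
      · exact fun s _ => (integrable_slice (iamp _)).1
    have e2 : (1 / 2) * (∑ s : Fin n → Fin 2, ∑ i : Fin n, ∑ k,
          ∫ z, ‖u.grad (Fin.cons a s) i.succ k z‖ ^ 2) +
        ∑ s : Fin n → Fin 2, ∫ z, w (fun i => z i.succ) * ‖u.amp (Fin.cons a s) z‖ ^ 2 =
        ∫ x : R3, ((1 / 2) * (∑ s : Fin n → Fin 2, ∑ i : Fin n, ∑ k, ∫ y : Conf n,
          ‖u.grad (Fin.cons a s) i.succ k (Fin.cons x y)‖ ^ 2) +
          ∑ s : Fin n → Fin 2, ∫ y : Conf n, w y * ‖u.amp (Fin.cons a s) (Fin.cons x y)‖ ^ 2) := by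
      rw [integral_add, integral_const_mul, integral_finsetSum, integral_finsetSum]
      · congr 1
        · congr 1
          refine Finset.sum_congr rfl fun s _ => ?_
          rw [integral_finsetSum]
          · refine Finset.sum_congr rfl fun i _ => ?_
            rw [integral_finsetSum]
            · exact Finset.sum_congr rfl fun k _ => (integrable_slice (igrad _ _ _)).2.symm
            · exact fun k _ => (integrable_slice (igrad _ _ _)).1
          · exact fun i _ => integrable_finsetSum _ fun k _ => (integrable_slice (igrad _ _ _)).1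
        · refine Finset.sum_congr rfl fun s _ => ?_
          exact (integrable_slice (hw (Fin.cons a s))).2.symm
      · exact fun s _ => (integrable_slice (hw (Fin.cons a s))).1
      · exact fun s _ => integrable_finsetSum _ fun i _ => integrable_finsetSum _ fun k _ =>
          (integrable_slice (igrad _ _ _)).1
      · refine Integrable.const_mul (integrable_finsetSum _ fun s _ => ?_) _
        exact integrable_finsetSum _ fun i _ => integrable_finsetSum _ fun k _ =>
          (integrable_slice (igrad _ _ _)).1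
      · exact integrable_finsetSum _ fun s _ => (integrable_slice (hw (Fin.cons a s))).1
    rw [e1, e2]
    refine integral_mono_ae ?_ ?_ ?_
    · exact Integrable.const_mul (integrable_finsetSum _ fun s _ => (integrable_slice (iamp _)).1) _
    · refine Integrable.add (Integrable.const_mul (integrable_finsetSum _ fun s _ => ?_) _)
        (integrable_finsetSum _ fun s _ => (integrable_slice (hw (Fin.cons a s))).1)
      exact integrable_finsetSum _ fun i _ => integrable_finsetSum _ fun k _ =>
        (integrable_slice (igrad _ _ _)).1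
    · filter_upwards [u.slice, hP] with x hx hPx
      obtain ⟨χ, hχ⟩ := hx a
      have h := hE χ (hPx a χ hχ)
      unfold normSq energy at h
      simp only [intR_eq] at h
      simp only [hχ.1, hχ.2] at h
      exact h
  rw [sum_spin (fun s => ∫ z, ‖u.amp s z‖ ^ 2),
    sum_spin (fun s => ∑ i : Fin n, ∑ k, ∫ z, ‖u.grad s i.succ k z‖ ^ 2),
    sum_spin (fun s => ∫ z, w (fun i => z i.succ) * ‖u.amp s z‖ ^ 2)]
  rw [Finset.mul_sum, Finset.mul_sum, ← Finset.sum_add_distrib]
  exact Finset.sum_le_sum fun a _ => key a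

end

end Vale.Agent.P363.R801
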