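import Vale.Agent.P363.R801.QPart
import Vale.Agent.P363.H943.Pot

/-! The form of the energy between a state with slices orthogonal to the ion ground state `Φ` and
a product `d Φ`: only the multipole part of the electron repulsion survives. -/

namespace Vale.Agent.P363.R801

open MeasureTheory Filter Topology
open Vale.Agent.P363.Stmt
open Vale.Agent.P363.H382
open Vale.Agent.P363.H943
open Vale.Agent.P363.R.Sob
open Vale.Agent.P363.R.Top
open scoped ContDiff ENNReal ComplexConjugate

set_option linter.unusedSectionVars false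

noncomputable section

variable {n : ℕ}

/-! ### Fubini -/

theorem integrable_cons {F : Type*} [NormedAddCommGroup F] [NormedSpace ℝ F]
    {f : Conf (n + 1) → F} (hf : Integrable f) :
    Integrable (fun p : R3 × Conf n => f (Fin.cons p.1 p.2)) :=
  integrable_unc_iff.2 hf

theorem integral_cons {F : Type*} [NormedAddCommGroup F] [NormedSpace ℝ F] [CompleteSpace F]
    {f : Conf (n + 1) → F} (hf : Integrable f) :
    ∫ z, f z = ∫ x : R3, ∫ y : Conf n, f (Fin.cons x y) := by
  rw [← integral_unc f]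
  exact integral_prod _ (integrable_cons hf)

theorem integrable_int_cons {F : Type*} [NormedAddCommGroup F] [NormedSpace ℝ F] [CompleteSpace F]
    {f : Conf (n + 1) → F} (hf : Integrable f) :
    Integrable (fun x : R3 => ∫ y : Conf n, f (Fin.cons x y)) :=
  (integrable_cons hf).integral_prod_left

theorem sum_int_zero {ι : Type*} (S : Finset ι) {A : ι → Conf (n + 1) → ℂ}
    (hA : ∀ s ∈ S, Integrable (A s))
    (h0 : ∀ᵐ x : R3, ∑ s ∈ S, ∫ y : Conf n, A s (Fin.cons x y) = 0) :
    ∑ s ∈ S, ∫ z, A s z = 0 := by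
  rw [Finset.sum_congr rfl fun s hs => integral_cons (hA s hs),
    ← integral_finsetSum _ fun s hs => integrable_int_cons (hA s hs)]
  rw [integral_congr_ae h0]
  simp

/-! ### admissible potentials -/

theorem adm_add {N : ℕ} {v w : Conf N → ℝ} (hv : Adm v) (hw : Adm w) :
    Adm (fun z => v z + w z) where
  meas := hv.meas.add hw.meas
  int f g hf hg h := by
    refine ((hv.int f g hf hg h).add (hw.int f g hf hg h)).congr (Eventually.of_forall fun x => ?_)
    simp [add_mul]

theorem adm_const_mul {N : ℕ} {v : Conf N → ℝ} (hv : Adm v) (c : ℝ) :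
    Adm (fun z => c * v z) where
  meas := hv.meas.const_mul c
  int f g hf hg h := by
    refine ((hv.int f g hf hg h).const_mul c).congr (Eventually.of_forall fun x => ?_)
    simp [mul_assoc]

theorem adm_sum {N : ℕ} {ι : Type*} (S : Finset ι) {v : ι → Conf N → ℝ}
    (hv : ∀ i ∈ S, Adm (v i)) : Adm (fun z => ∑ i ∈ S, v i z) where
  meas := Finset.aestronglyMeasurable_fun_sum S fun i hi => (hv i hi).meas
  int f g hf hg h := by
    have := integrable_finsetSum S fun i hi => (hv i hi).int f g hf hg h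
    refine this.congr (Eventually.of_forall fun x => ?_)
    simp [Finset.sum_mul]

theorem measurable_inv_one {N : ℕ} (i : Fin N) : Measurable (fun z : Conf N => 1 / ‖z i‖) := by
  simp only [one_div]
  exact (by fun_prop : Continuous fun z : Conf N => ‖z i‖).measurable.inv

theorem measurable_inv_two {N : ℕ} (i j : Fin N) :
    Measurable (fun z : Conf N => 1 / ‖z i - z j‖) := by
  simp only [one_div]
  exact (by fun_prop : Continuous fun z : Conf N => ‖z i - z j‖).measurable.inv

theorem adm_one {N : ℕ} (i : Fin N) : Adm (fun z : Conf N => 1 / ‖z i‖) where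
  meas := (measurable_inv_one i).aestronglyMeasurable
  int f g hf hg h := by
    refine (R801.int_one hf hg h i).congr (Eventually.of_forall fun x => ?_)
    simp only [div_eq_mul_inv]; ring

theorem adm_two {N : ℕ} {i j : Fin N} (hij : i ≠ j) : Adm (fun z : Conf N => 1 / ‖z i - z j‖) where
  meas := (measurable_inv_two i j).aestronglyMeasurable
  int f g hf hg h := by
    refine (R801.int_two hf hg h hij).congr (Eventually.of_forall fun x => ?_)
    simp only [div_eq_mul_inv]; ring

/-- repulsion between electron `0` and the others minus its monopole part -/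
def crossW (z : Conf (n + 1)) : ℝ := (∑ j : Fin n, 1 / ‖z 0 - z j.succ‖) - n * (1 / ‖z 0‖)

theorem adm_crossW : Adm (crossW : Conf (n + 1) → ℝ) := by
  have h := adm_add (adm_sum Finset.univ
    (v := fun (j : Fin n) (z : Conf (n + 1)) => 1 / ‖z 0 - z j.succ‖)
    fun j _ => adm_two (Ne.symm (Fin.succ_ne_zero j))) (adm_const_mul (adm_one (0 : Fin (n + 1)))
      (-(n : ℝ)))
  have e : (crossW : Conf (n + 1) → ℝ) = fun z => (∑ j : Fin n, 1 / ‖z 0 - z j.succ‖) +
    -(n : ℝ) * (1 / ‖z 0‖) := by
    funext z; unfold crossW; ring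
  rw [e]; exact h

theorem adm_tail (lam : ℝ) : Adm (fun z : Conf (n + 1) => pot lam (tl z)) := by
  have h1 := adm_sum Finset.univ (v := fun (i : Fin n) (z : Conf (n + 1)) =>
    -1 * (1 / ‖z i.succ‖)) fun i _ => adm_const_mul (adm_one i.succ) (-1)
  have h2 := adm_sum Finset.univ (v := fun (i : Fin n) (z : Conf (n + 1)) =>
    ∑ k ∈ Finset.Ioi i, 1 / ‖z i.succ - z k.succ‖) fun i _ => adm_sum _ fun k hk =>
      adm_two (fun h => absurd (Fin.succ_injective _ h) (ne_of_lt (Finset.mem_Ioi.1 hk)))
  have e : (fun z : Conf (n + 1) => pot lam (tl z)) = fun z => (∑ i : Fin n, -1 * (1 / ‖z i.succ‖)) +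
      lam * ∑ i : Fin n, ∑ k ∈ Finset.Ioi i, 1 / ‖z i.succ - z k.succ‖ := by
    funext z
    simp only [pot, rep, tl, neg_mul, one_mul]
  rw [e]
  exact adm_add h1 (adm_const_mul h2 lam)

theorem pot_split (lam : ℝ) (z : Conf (n + 1)) :
    pot lam z = (lam * n - 1) * (1 / ‖z 0‖) + pot lam (tl z) + lam * crossW z := by
  rw [pot_succ]
  unfold crossW
  have : pot lam (fun i => z i.succ : Conf n) = pot lam (tl z) := rfl
  rw [this]
  ring

/-! ### the form between an orthogonal state and a product -/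

theorem prodFam_one {a : Fin 2} {d : R3 → ℂ} {d' : Fin 3 → R3 → ℂ} (hd : MemLp d 2 volume)
    (hd' : ∀ k, MemLp (d' k) 2 volume) (hwd : ∀ k, IsWD volume (e3 k) d (d' k))
    (Φ : ElectronState n) {b : Fin 2} (hb : b ≠ a) (s : Fin n → Fin 2) :
    (prodFam a d d' hd hd' hwd Φ).amp (Fin.cons b s) = (fun _ => 0) ∧
    ∀ i k, (prodFam a d d' hd hd' hwd Φ).grad (Fin.cons b s) i k = (fun _ => 0) := by
  unfold prodFam
  simp [hb]

theorem prodFam_amp {a : Fin 2} {d : R3 → ℂ} {d' : Fin 3 → R3 → ℂ} (hd : MemLp d 2 volume)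
    (hd' : ∀ k, MemLp (d' k) 2 volume) (hwd : ∀ k, IsWD volume (e3 k) d (d' k))
    (Φ : ElectronState n) (s : Fin n → Fin 2) (x : R3) (y : Conf n) :
    (prodFam a d d' hd hd' hwd Φ).amp (Fin.cons a s) (Fin.cons x y) = d x * Φ.amp s y := by
  unfold prodFam
  simp [tens]

theorem prodFam_grad_zero {a : Fin 2} {d : R3 → ℂ} {d' : Fin 3 → R3 → ℂ} (hd : MemLp d 2 volume)
    (hd' : ∀ k, MemLp (d' k) 2 volume) (hwd : ∀ k, IsWD volume (e3 k) d (d' k))
    (Φ : ElectronState n) (s : Fin n → Fin 2) (k : Fin 3) (x : R3) (y : Conf n) :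
    (prodFam a d d' hd hd' hwd Φ).grad (Fin.cons a s) 0 k (Fin.cons x y) = d' k x * Φ.amp s y := by
  unfold prodFam
  simp [tens]

theorem prodFam_grad_succ {a : Fin 2} {d : R3 → ℂ} {d' : Fin 3 → R3 → ℂ} (hd : MemLp d 2 volume)
    (hd' : ∀ k, MemLp (d' k) 2 volume) (hwd : ∀ k, IsWD volume (e3 k) d (d' k))
    (Φ : ElectronState n) (s : Fin n → Fin 2) (i : Fin n) (k : Fin 3) (x : R3) (y : Conf n) :
    (prodFam a d d' hd hd' hwd Φ).grad (Fin.cons a s) i.succ k (Fin.cons x y) =
      d x * Φ.grad s i k y := by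
  unfold prodFam
  simp [tens]

section key

variable {d : R3 → ℂ} {d' : Fin 3 → R3 → ℂ} (hd : MemLp d 2 volume)
  (hd' : ∀ k, MemLp (d' k) 2 volume) (hwd : ∀ k, IsWD volume (e3 k) d (d' k))
  {Φ : ElectronState n} {u : PState n}

/-- functions of `z₀` only do not couple -/
theorem pot_zero_of_orth (a : Fin 2) (h : Orth Φ u) {v : R3 → ℝ}
    (hv : Adm (fun z : Conf (n + 1) => v (z 0))) :
    Fam.pot (fun z => v (z 0)) u.toFam (prodFam a d d' hd hd' hwd Φ) = 0 := by
  unfold Fam.pot
  rw [sum_spin (n := n)]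
  refine Finset.sum_eq_zero fun b _ => ?_
  by_cases hb : b = a
  · subst hb
    refine sum_int_zero Finset.univ (fun s _ => Fam.int_pot hv _ _ _) ?_
    filter_upwards [h] with x hx
    have h1 := hx b
    unfold dysF contr at h1
    have h2 : ∑ s, ∫ y : Conf n, conj (u.toFam.amp (Fin.cons b s) (Fin.cons x y)) * Φ.amp s y = 0 := by
      have h3 := congrArg conj h1
      rw [map_sum, map_zero] at h3
      rw [← h3]
      refine Finset.sum_congr rfl fun s _ => ?_
      rw [← integral_conj]
      congr 1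
      funext y
      simp [mul_comm]
    have e : ∀ s, ∫ y : Conf n, ((v ((Fin.cons x y : Conf (n + 1)) 0) : ℝ) : ℂ) *
        (conj (u.toFam.amp (Fin.cons b s) (Fin.cons x y)) *
          (prodFam b d d' hd hd' hwd Φ).amp (Fin.cons b s) (Fin.cons x y)) =
        ((v x : ℂ) * d x) * ∫ y : Conf n,
          conj (u.toFam.amp (Fin.cons b s) (Fin.cons x y)) * Φ.amp s y := by
      intro s
      rw [← integral_const_mul]
      congr 1
      funext y
      rw [prodFam_amp, Fin.cons_zero]
      ring
    simp only [e]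
    rw [← Finset.mul_sum, h2, mul_zero]
  · refine Finset.sum_eq_zero fun s _ => ?_
    rw [(prodFam_one hd hd' hwd Φ hb s).1]
    simp

/-- the kinetic energy of electron `0` does not couple -/
theorem kin_zero_of_orth (a : Fin 2) (h : Orth Φ u) (k : Fin 3) :
    ∑ s, ∫ z, conj (u.toFam.grad s 0 k z) * (prodFam a d d' hd hd' hwd Φ).grad s 0 k z = 0 := by
  rw [sum_spin (n := n)]
  refine Finset.sum_eq_zero fun b _ => ?_
  by_cases hb : b = a
  · subst hb
    refine sum_int_zero Finset.univ (fun s _ => Fam.int_grad _ _ _ _ _) ?_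
    filter_upwards [h.grad] with x hx
    have h1 := hx b k
    unfold dysG contr at h1
    have h2 : ∑ s, ∫ y : Conf n,
        conj (u.toFam.grad (Fin.cons b s) 0 k (Fin.cons x y)) * Φ.amp s y = 0 := by
      have h3 := congrArg conj h1
      rw [map_sum, map_zero] at h3
      rw [← h3]
      refine Finset.sum_congr rfl fun s _ => ?_
      rw [← integral_conj]
      congr 1
      funext y
      simp [mul_comm]
    have e : ∀ s, ∫ y : Conf n, conj (u.toFam.grad (Fin.cons b s) 0 k (Fin.cons x y)) *
          (prodFam b d d' hd hd' hwd Φ).grad (Fin.cons b s) 0 k (Fin.cons x y) =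
        d' k x * ∫ y : Conf n,
          conj (u.toFam.grad (Fin.cons b s) 0 k (Fin.cons x y)) * Φ.amp s y := by
      intro s
      rw [← integral_const_mul]
      congr 1
      funext y
      rw [prodFam_grad_zero]
      ring
    simp only [e]
    rw [← Finset.mul_sum, h2, mul_zero]
  · refine Finset.sum_eq_zero fun s _ => ?_
    rw [(prodFam_one hd hd' hwd Φ hb s).2]
    simp

/-- the ion part does not couple, by the Euler-Lagrange equation of `Φ` -/
theorem ion_zero_of_orth (a : Fin 2) (h : Orth Φ u) {lam : ℝ} (hΦ : IsGroundState (pot lam) Φ) :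
    (1 / 2) * (∑ s, ∑ i : Fin n, ∑ k, ∫ z, conj (u.toFam.grad s i.succ k z) *
      (prodFam a d d' hd hd' hwd Φ).grad s i.succ k z) +
      Fam.pot (fun z => pot lam (tl z)) u.toFam (prodFam a d d' hd hd' hwd Φ) = 0 := by
  unfold Fam.pot
  rw [sum_spin (n := n), sum_spin (n := n) (fun s => ∫ z, ((pot lam (tl z) : ℝ) : ℂ) *
    (conj (u.toFam.amp s z) * (prodFam a d d' hd hd' hwd Φ).amp s z)), Finset.mul_sum,
    ← Finset.sum_add_distrib]
  refine Finset.sum_eq_zero fun b _ => ?_
  by_cases hb : b = a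
  · subst hb
    set P := prodFam b d d' hd hd' hwd Φ with hP
    have i1 : ∀ (s : Fin n → Fin 2) (i : Fin n) (k : Fin 3), Integrable fun z =>
        conj (u.toFam.grad (Fin.cons b s) i.succ k z) * P.grad (Fin.cons b s) i.succ k z :=
      fun s i k => Fam.int_grad _ _ _ _ _
    have i2 : ∀ s : Fin n → Fin 2, Integrable fun z => ((pot lam (tl z) : ℝ) : ℂ) *
        (conj (u.toFam.amp (Fin.cons b s) z) * P.amp (Fin.cons b s) z) :=
      fun s => Fam.int_pot (adm_tail lam) _ _ _
    have i3 : ∀ s : Fin n → Fin 2, Integrable fun z => (1 / 2 : ℂ) * (∑ i : Fin n, ∑ k,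
        conj (u.toFam.grad (Fin.cons b s) i.succ k z) * P.grad (Fin.cons b s) i.succ k z) :=
      fun s => (integrable_finsetSum _ fun i _ => integrable_finsetSum _ fun k _ =>
        i1 s i k).const_mul _
    have e0 : (1 / 2) * (∑ s : Fin n → Fin 2, ∑ i : Fin n, ∑ k,
        ∫ z, conj (u.toFam.grad (Fin.cons b s) i.succ k z) * P.grad (Fin.cons b s) i.succ k z) +
        ∑ s : Fin n → Fin 2, ∫ z, ((pot lam (tl z) : ℝ) : ℂ) *
          (conj (u.toFam.amp (Fin.cons b s) z) * P.amp (Fin.cons b s) z) =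
        ∑ s : Fin n → Fin 2, ∫ z, ((1 / 2 : ℂ) * (∑ i : Fin n, ∑ k,
          conj (u.toFam.grad (Fin.cons b s) i.succ k z) * P.grad (Fin.cons b s) i.succ k z) +
          ((pot lam (tl z) : ℝ) : ℂ) *
            (conj (u.toFam.amp (Fin.cons b s) z) * P.amp (Fin.cons b s) z)) := by
      rw [Finset.mul_sum, ← Finset.sum_add_distrib]
      refine Finset.sum_congr rfl fun s _ => ?_
      rw [integral_add (i3 s) (i2 s), integral_const_mul,
        integral_finsetSum _ fun i _ => integrable_finsetSum _ fun k _ => i1 s i k]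
      congr 2
      refine Finset.sum_congr rfl fun i _ => ?_
      rw [integral_finsetSum _ fun k _ => i1 s i k]
    rw [e0]
    refine sum_int_zero Finset.univ (fun s _ => (i3 s).add (i2 s)) ?_
    filter_upwards [h, u.slice] with x hx hsl
    obtain ⟨χ, hχ⟩ := hsl b
    have hel := el_pot hΦ (fam χ)
    have hinn : Fam.inn (fam χ) (fam Φ) = 0 := by
      have h1 := hx b
      have h2 : dysF Φ u.toFam b x = Fam.inn (fam Φ) (fam χ) := by
        unfold dysF contr Fam.inn
        refine Finset.sum_congr rfl fun s _ => ?_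
        simp only [fam_amp, hχ.1]
        rfl
      rw [h2] at h1
      rw [← Fam.inn_conj, h1, map_zero]
    rw [hinn, mul_zero] at hel
    unfold Fam.form Fam.kin Fam.pot at hel
    have j1 : ∀ (s : Fin n → Fin 2) (i : Fin n) (k : Fin 3), Integrable fun y =>
        conj ((fam χ).grad s i k y) * (fam Φ).grad s i k y := fun s i k => Fam.int_grad _ _ _ _ _
    have j2 : ∀ s : Fin n → Fin 2, Integrable fun y => ((pot lam y : ℝ) : ℂ) *
        (conj ((fam χ).amp s y) * (fam Φ).amp s y) := fun s => Fam.int_pot (adm_pot lam) _ _ _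
    have e : ∀ s : Fin n → Fin 2, ∫ y : Conf n, ((1 / 2 : ℂ) * (∑ i : Fin n, ∑ k,
          conj (u.toFam.grad (Fin.cons b s) i.succ k (Fin.cons x y)) *
            P.grad (Fin.cons b s) i.succ k (Fin.cons x y)) +
          ((pot lam (tl (Fin.cons x y : Conf (n + 1))) : ℝ) : ℂ) *
            (conj (u.toFam.amp (Fin.cons b s) (Fin.cons x y)) *
              P.amp (Fin.cons b s) (Fin.cons x y))) =
        d x * ((1 / 2) * (∑ i : Fin n, ∑ k, ∫ y, conj ((fam χ).grad s i k y) *
          (fam Φ).grad s i k y) + ∫ y, ((pot lam y : ℝ) : ℂ) *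
            (conj ((fam χ).amp s y) * (fam Φ).amp s y)) := by
      intro s
      have e1 : ∀ y : Conf n, ((1 / 2 : ℂ) * (∑ i : Fin n, ∑ k,
          conj (u.toFam.grad (Fin.cons b s) i.succ k (Fin.cons x y)) *
            P.grad (Fin.cons b s) i.succ k (Fin.cons x y)) +
          ((pot lam (tl (Fin.cons x y : Conf (n + 1))) : ℝ) : ℂ) *
            (conj (u.toFam.amp (Fin.cons b s) (Fin.cons x y)) *
              P.amp (Fin.cons b s) (Fin.cons x y))) =
          d x * ((1 / 2 : ℂ) * (∑ i : Fin n, ∑ k, conj ((fam χ).grad s i k y) *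
            (fam Φ).grad s i k y) + ((pot lam y : ℝ) : ℂ) *
            (conj ((fam χ).amp s y) * (fam Φ).amp s y)) := by
        intro y
        rw [hP, prodFam_amp, tl_cons]
        simp only [prodFam_grad_succ, fam_grad, fam_amp, hχ.1, hχ.2]
        rw [mul_add, Finset.mul_sum, Finset.mul_sum, Finset.mul_sum]
        have e2 : ∀ i : Fin n, (1 / 2 : ℂ) * ∑ k, conj (u.toFam.grad (Fin.cons b s) i.succ k
            (Fin.cons x y)) * (d x * Φ.grad s i k y) = d x * ((1 / 2) * ∑ k,
              conj (u.grad (Fin.cons b s) i.succ k (Fin.cons x y)) * Φ.grad s i k y) := by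
          intro i
          rw [Finset.mul_sum, Finset.mul_sum, Finset.mul_sum]
          refine Finset.sum_congr rfl fun k _ => ?_
          have : u.toFam.grad = u.grad := rfl
          rw [this]; ring
        simp only [e2]
        have : u.toFam.amp = u.amp := rfl
        rw [this]; ring
      simp only [e1]
      rw [integral_const_mul, integral_add ((integrable_finsetSum _ fun i _ =>
        integrable_finsetSum _ fun k _ => j1 s i k).const_mul _) (j2 s), integral_const_mul,
        integral_finsetSum _ fun i _ => integrable_finsetSum _ fun k _ => j1 s i k]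
      congr 3
      refine Finset.sum_congr rfl fun i _ => ?_
      rw [integral_finsetSum _ fun k _ => j1 s i k]
    simp only [e]
    rw [← Finset.mul_sum, Finset.sum_add_distrib, ← Finset.mul_sum, hel, mul_zero]
  · have h1 := prodFam_one hd hd' hwd Φ hb
    simp only [(h1 _).1, (h1 _).2]
    simp

/-- Only the multipole part of the repulsion couples. -/
theorem form_prod_of_orth (a : Fin 2) (h : Orth Φ u) {lam : ℝ} (hΦ : IsGroundState (pot lam) Φ) :
    Fam.form (pot lam) u.toFam (prodFam a d d' hd hd' hwd Φ) =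
      (lam : ℂ) * Fam.pot crossW u.toFam (prodFam a d d' hd hd' hwd Φ) := by
  set P := prodFam a d d' hd hd' hwd Φ with hP
  have hk : Fam.kin u.toFam P = (1 / 2) * (∑ s, ∑ i : Fin n, ∑ k,
      ∫ z, conj (u.toFam.grad s i.succ k z) * P.grad s i.succ k z) := by
    unfold Fam.kin
    congr 1
    have h0 : ∑ s, ∑ k, ∫ z, conj (u.toFam.grad s 0 k z) * P.grad s 0 k z = 0 := by
      rw [Finset.sum_comm]
      exact Finset.sum_eq_zero fun k _ => kin_zero_of_orth hd hd' hwd a h k
    have h1 : ∀ s, ∑ i, ∑ k, ∫ z, conj (u.toFam.grad s i k z) * P.grad s i k z =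
        (∑ k, ∫ z, conj (u.toFam.grad s 0 k z) * P.grad s 0 k z) +
          ∑ i : Fin n, ∑ k, ∫ z, conj (u.toFam.grad s i.succ k z) * P.grad s i.succ k z :=
      fun s => Fin.sum_univ_succ _
    simp only [h1, Finset.sum_add_distrib, h0, zero_add]
  have hp : Fam.pot (pot lam) u.toFam P = ((lam * n - 1 : ℝ) : ℂ) *
      Fam.pot (fun z => 1 / ‖z 0‖) u.toFam P + Fam.pot (fun z => pot lam (tl z)) u.toFam P +
      (lam : ℂ) * Fam.pot crossW u.toFam P := by
    unfold Fam.pot
    rw [Finset.mul_sum, Finset.mul_sum, ← Finset.sum_add_distrib, ← Finset.sum_add_distrib]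
    refine Finset.sum_congr rfl fun s _ => ?_
    have k1 := (Fam.int_pot (adm_one (0 : Fin (n + 1))) u.toFam P s).const_mul
      ((lam * n - 1 : ℝ) : ℂ)
    have k2 := Fam.int_pot (adm_tail lam) u.toFam P s
    have k3 := (Fam.int_pot adm_crossW u.toFam P s).const_mul (lam : ℂ)
    have k12 : Integrable (fun z => ((lam * n - 1 : ℝ) : ℂ) * (((1 / ‖z 0‖ : ℝ) : ℂ) *
        (conj (u.toFam.amp s z) * P.amp s z)) + ((pot lam (tl z) : ℝ) : ℂ) *
        (conj (u.toFam.amp s z) * P.amp s z)) := k1.add k2
    rw [← integral_const_mul, ← integral_const_mul, ← integral_add k1 k2, ← integral_add k12 k3]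
    congr 1
    funext z
    rw [pot_split]
    push_cast
    ring
  have h2 := ion_zero_of_orth hd hd' hwd a h hΦ
  have h3 := pot_zero_of_orth hd hd' hwd a h (v := fun x => 1 / ‖x‖) (adm_one 0)
  unfold Fam.form
  rw [hk, hp, h3, mul_zero, zero_add, ← add_assoc, h2, zero_add]

/-- inner product with a product -/
theorem inn_prod_of_orth (a : Fin 2) (h : Orth Φ u) :
    Fam.inn u.toFam (prodFam a d d' hd hd' hwd Φ) = 0 := by
  have h1 : Adm (fun z : Conf (n + 1) => (fun _ : R3 => (1 : ℝ)) (z 0)) :=
    { meas := aestronglyMeasurable_const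
      int := fun f g hf _ _ => by simpa using hf.integrable_norm_pow (by norm_num) }
  have h2 := pot_zero_of_orth hd hd' hwd a h (v := fun _ => (1 : ℝ)) h1
  unfold Fam.pot at h2
  unfold Fam.inn
  simpa using h2

end key

end

end Vale.Agent.P363.R801
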