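import Vale.Agent.P363.R801.QForm

/-! IMS localisation for partially antisymmetric states, and the weighted energy inequality for
the `Q`-part of a ground state. -/

namespace Vale.Agent.P363.R801

open MeasureTheory Filter Topology
open Vale.Agent.P363.Stmt
open Vale.Agent.P363.H382
open Vale.Agent.P363.H943
open Vale.Agent.P363.R.Sob
open Vale.Agent.P363.R.Top
open scoped ContDiff ENNReal ComplexConjugate

set_option linter.unusedSectionVars false

noncomputable section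

variable {n : ℕ}

theorem re_integral {α : Type*} [MeasurableSpace α] {μ : Measure α} {f : α → ℂ}
    (hf : Integrable f μ) : (∫ x, f x ∂μ).re = ∫ x, (f x).re ∂μ := by
  have := integral_re hf
  simpa using this.symm

theorem fderiv_sq (G : R3 → ℝ) (hG : ContDiff ℝ ∞ G) (x v : R3) :
    fderiv ℝ (fun x => G x ^ 2) x v = 2 * G x * fderiv ℝ G x v := by
  have h : HasFDerivAt G (fderiv ℝ G x) x := (hG.differentiable (by simp) x).hasFDerivAt
  have h2 := h.pow 2
  rw [h2.fderiv]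
  simp

section ims

variable (u : PState n) (G : R3 → ℝ) (hG : ContDiff ℝ ∞ G) (C : ℝ) (hC : ∀ x, |G x| ≤ C)
  (hC' : ∀ k x, |fderiv ℝ G x (e3 k)| ≤ C)

include hC in
theorem sqG_le (x : R3) : |G x ^ 2| ≤ 2 * C ^ 2 := by
  have h := hC x
  rw [abs_pow]
  nlinarith [abs_nonneg (G x)]

include hG hC hC' in
theorem sqG_deriv_le (k : Fin 3) (x : R3) :
    |fderiv ℝ (fun x => G x ^ 2) x (e3 k)| ≤ 2 * C ^ 2 := by
  rw [fderiv_sq G hG, abs_mul, abs_mul, abs_two]
  have h1 := hC x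
  have h2 := hC' k x
  have h3 : 0 ≤ C := (abs_nonneg _).trans h1
  nlinarith [abs_nonneg (G x), abs_nonneg (fderiv ℝ G x (e3 k)), mul_le_mul h1 h2 (abs_nonneg _) h3]

/-- multiplication by `G²` -/
def PState.mulG2 : PState n :=
  u.mulG (fun x => G x ^ 2) (hG.pow 2) (2 * C ^ 2) (sqG_le G C hC) (sqG_deriv_le G hG C hC hC')

theorem mulG2_amp (s : Fin (n + 1) → Fin 2) (z : Conf (n + 1)) :
    (u.mulG2 G hG C hC hC').amp s z = ((G (z 0) ^ 2 : ℝ) : ℂ) * u.amp s z := rfl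

theorem mulG_amp (s : Fin (n + 1) → Fin 2) (z : Conf (n + 1)) :
    (u.mulG G hG C hC hC').amp s z = (G (z 0) : ℂ) * u.amp s z := rfl

theorem ims_grad (s : Fin (n + 1) → Fin 2) (i : Fin (n + 1)) (k : Fin 3) (z : Conf (n + 1)) :
    (conj ((u.mulG2 G hG C hC hC').grad s i k z) * u.grad s i k z).re =
      ‖(u.mulG G hG C hC hC').grad s i k z‖ ^ 2 -
        (if i = 0 then (fderiv ℝ G (z 0) (e3 k)) ^ 2 * ‖u.amp s z‖ ^ 2 else 0) := by
  have e1 : (u.mulG2 G hG C hC hC').grad s i k z =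
      (if i = 0 then ((fderiv ℝ (fun x => G x ^ 2) (z 0) (e3 k) : ℝ) : ℂ) * u.amp s z else 0) +
        ((G (z 0) ^ 2 : ℝ) : ℂ) * u.grad s i k z := rfl
  have e2 : (u.mulG G hG C hC hC').grad s i k z =
      (if i = 0 then (fderiv ℝ G (z 0) (e3 k) : ℂ) * u.amp s z else 0) +
        (G (z 0) : ℂ) * u.grad s i k z := rfl
  rw [e1, e2, fderiv_sq G hG]
  generalize fderiv ℝ G (z 0) (e3 k) = g'
  generalize G (z 0) = g
  generalize u.amp s z = a
  generalize u.grad s i k z = b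
  by_cases hi : i = 0
  · simp only [hi, if_true]
    rw [Complex.sq_norm, Complex.sq_norm, Complex.normSq_apply, Complex.normSq_apply]
    simp only [map_add, map_mul, Complex.conj_ofReal, Complex.mul_re, Complex.add_re,
      Complex.conj_re, Complex.conj_im, Complex.ofReal_re, Complex.ofReal_im, Complex.add_im,
      Complex.mul_im]
    ring
  · simp only [hi, if_false, zero_add, sub_zero]
    rw [Complex.sq_norm, Complex.normSq_apply]
    simp only [map_mul, Complex.conj_ofReal, Complex.mul_re,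
      Complex.conj_re, Complex.conj_im, Complex.ofReal_re, Complex.ofReal_im, Complex.mul_im]
    ring

theorem ims_amp (s : Fin (n + 1) → Fin 2) (z : Conf (n + 1)) (w : ℝ) :
    ((w : ℂ) * (conj ((u.mulG2 G hG C hC hC').amp s z) * u.amp s z)).re =
      w * ‖(u.mulG G hG C hC hC').amp s z‖ ^ 2 := by
  rw [mulG2_amp, mulG_amp]
  generalize G (z 0) = g
  generalize u.amp s z = a
  rw [Complex.sq_norm, Complex.normSq_apply]
  simp only [map_mul, Complex.conj_ofReal, Complex.mul_re,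
    Complex.conj_re, Complex.conj_im, Complex.ofReal_re, Complex.ofReal_im, Complex.mul_im]
  ring

include hG hC' in
theorem int_gradG (s : Fin (n + 1) → Fin 2) (k : Fin 3) :
    Integrable (fun z : Conf (n + 1) => (fderiv ℝ G (z 0) (e3 k)) ^ 2 * ‖u.amp s z‖ ^ 2) := by
  have h0 : Integrable (fun z => ‖u.amp s z‖ ^ 2) :=
    (u.amp_memLp s).integrable_norm_pow (by norm_num)
  have hd : Continuous fun z : Conf (n + 1) => (fderiv ℝ G (z 0) (e3 k)) ^ 2 :=
    (((hG.continuous_fderiv (by simp)).comp (continuous_apply 0)).clm_apply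
      continuous_const).pow 2
  refine h0.bdd_mul (c := C ^ 2) hd.aestronglyMeasurable (Eventually.of_forall fun z => ?_)
  rw [Real.norm_eq_abs, abs_pow]
  have h1 := hC' k (z 0)
  exact pow_le_pow_left₀ (abs_nonneg _) h1 2

/-- IMS localisation formula. -/
theorem ims (lam : ℝ) : (Fam.form (pot lam) (u.mulG2 G hG C hC hC').toFam u.toFam).re =
    (u.mulG G hG C hC hC').en lam -
      (1 / 2) * ∑ s, ∫ z, (∑ k, (fderiv ℝ G (z 0) (e3 k)) ^ 2) * ‖u.amp s z‖ ^ 2 := by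
  set W := u.mulG2 G hG C hC hC' with hW
  set v := u.mulG G hG C hC hC' with hv
  have hg : ∀ s i k, (∫ z, conj (W.toFam.grad s i k z) * u.toFam.grad s i k z).re =
      (∫ z, ‖v.grad s i k z‖ ^ 2) -
        (if i = 0 then ∫ z, (fderiv ℝ G (z 0) (e3 k)) ^ 2 * ‖u.amp s z‖ ^ 2 else 0) := by
    intro s i k
    have h1 : Integrable (fun z => ‖v.grad s i k z‖ ^ 2) :=
      (v.grad_memLp s i k).integrable_norm_pow (by norm_num)
    rw [re_integral (Fam.int_grad _ _ _ _ _)]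
    by_cases hi : i = 0
    · simp only [hi, if_true]
      rw [← integral_sub (hi ▸ h1) (int_gradG u G hG C hC' s k)]
      congr 1
      funext z
      have := ims_grad u G hG C hC hC' s 0 k z
      simp only [if_true] at this
      exact this
    · simp only [hi, if_false, sub_zero]
      congr 1
      funext z
      have := ims_grad u G hG C hC hC' s i k z
      simp only [hi, if_false, sub_zero] at this
      exact this
  have hp : ∀ s, (∫ z, ((pot lam z : ℝ) : ℂ) * (conj (W.toFam.amp s z) * u.toFam.amp s z)).re =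
      ∫ z, pot lam z * ‖v.amp s z‖ ^ 2 := by
    intro s
    rw [re_integral (Fam.int_pot (adm_pot lam) _ _ _)]
    congr 1
    funext z
    exact ims_amp u G hG C hC hC' s z (pot lam z)
  have hsum : ∀ s, ∫ z, (∑ k, (fderiv ℝ G (z 0) (e3 k)) ^ 2) * ‖u.amp s z‖ ^ 2 =
      ∑ k, ∫ z, (fderiv ℝ G (z 0) (e3 k)) ^ 2 * ‖u.amp s z‖ ^ 2 := by
    intro s
    rw [← integral_finsetSum _ fun k _ => int_gradG u G hG C hC' s k]
    congr 1
    funext z
    rw [Finset.sum_mul]
  have hi : ∀ s, ∑ i : Fin (n + 1), ∑ k : Fin 3,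
      (if i = 0 then ∫ z, (fderiv ℝ G (z 0) (e3 k)) ^ 2 * ‖u.amp s z‖ ^ 2 else 0) =
      ∑ k, ∫ z, (fderiv ℝ G (z 0) (e3 k)) ^ 2 * ‖u.amp s z‖ ^ 2 := by
    intro s
    rw [Finset.sum_comm]
    refine Finset.sum_congr rfl fun k _ => ?_
    rw [Finset.sum_ite_eq' Finset.univ (0 : Fin (n + 1))]
    simp
  unfold Fam.form Fam.kin Fam.pot PState.en PState.kin
  rw [Complex.add_re, show (1 / 2 : ℂ) = ((1 / 2 : ℝ) : ℂ) from by norm_num,
    Complex.re_ofReal_mul, Complex.re_sum, Complex.re_sum]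
  simp only [Complex.re_sum, hg, hp, Finset.sum_sub_distrib, hi, hsum]
  ring

end ims

theorem nsq_mulG (u : PState n) (G : R3 → ℝ) (hG : ContDiff ℝ ∞ G) (C : ℝ) (hC : ∀ x, |G x| ≤ C)
    (hC' : ∀ k x, |fderiv ℝ G x (e3 k)| ≤ C) :
    (Fam.inn (u.mulG2 G hG C hC hC').toFam u.toFam).re = (u.mulG G hG C hC hC').nsq := by
  unfold Fam.inn PState.nsq
  rw [Complex.re_sum]
  refine Finset.sum_congr rfl fun s _ => ?_
  rw [re_integral (Fam.int_amp _ _ _)]
  congr 1
  funext z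
  have := ims_amp u G hG C hC hC' s z 1
  rw [Complex.ofReal_one, one_mul, one_mul] at this
  exact this

/-- The localised energy inequality for the `Q`-part. -/
theorem q_energy {lam : ℝ} (hlam : 0 ≤ lam) {Φ : ElectronState n} {Ψ : ElectronState (n + 1)}
    (hΦ : IsGroundState (pot lam) Φ) (hΨ : IsGroundState (pot lam) Ψ)
    (hz : ∀ᵐ x, dyson Φ Ψ 1 x = 0) {g : ℝ}
    (hgap : ∀ χ : ElectronState n, inn Φ χ = 0 →
      (energy (pot lam) Φ + g) * normSq χ ≤ energy (pot lam) χ)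
    (G : R3 → ℝ) (hG : ContDiff ℝ ∞ G) (C : ℝ) (hC : ∀ x, |G x| ≤ C)
    (hC' : ∀ k x, |fderiv ℝ G x (e3 k)| ≤ C) :
    (energy (pot lam) Φ - energy (pot lam) Ψ + g) * ((qPart Φ Ψ).mulG G hG C hC hC').nsq -
      ∑ s, ∫ z, ‖((qPart Φ Ψ).mulG G hG C hC hC').amp s z‖ ^ 2 / ‖z 0‖ ≤
    (1 / 2) * (∑ s, ∫ z, (∑ k, (fderiv ℝ G (z 0) (e3 k)) ^ 2) * ‖(qPart Φ Ψ).amp s z‖ ^ 2) -
      lam * (Fam.pot crossW ((qPart Φ Ψ).mulG2 G hG C hC hC').toFam (pPart Φ Ψ)).re := by
  set D := qPart Φ Ψ with hD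
  set W := D.mulG2 G hG C hC hC' with hW
  set v := D.mulG G hG C hC hC' with hv
  have hO : Orth Φ D := qPart_orth Φ Ψ hΦ.1 hz
  have hOW : Orth Φ W := hO.mulG _ _ _ _ _
  have hOv : Orth Φ v := hO.mulG _ _ _ _ _
  have hel := el_pot hΨ W.toFam
  rw [(fam_eq_add Φ Ψ).form_right, (fam_eq_add Φ Ψ).inn_right, Fam.form_add_right (adm_pot lam),
    Fam.inn_add_right, ← hD] at hel
  have h1 : Fam.form (pot lam) W.toFam (pPart Φ Ψ) = (lam : ℂ) * Fam.pot crossW W.toFam (pPart Φ Ψ) :=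
    form_prod_of_orth _ _ _ 0 hOW hΦ
  have h2 : Fam.inn W.toFam (pPart Φ Ψ) = 0 := inn_prod_of_orth _ _ _ 0 hOW
  rw [h1, h2, add_zero] at hel
  have hre := congrArg Complex.re hel
  rw [Complex.add_re, Complex.re_ofReal_mul, Complex.re_ofReal_mul, ims, nsq_mulG] at hre
  have hgap' := v.h2_gap hlam (energy (pot lam) Φ + g) Φ hgap hOv
  have hk : 0 ≤ v.kin0 := Finset.sum_nonneg fun s _ => Finset.sum_nonneg fun k _ =>
    integral_nonneg fun z => by positivity
  rw [← hv] at hre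
  linarith

/-- Cauchy-Schwarz / Young bound of the coupling term. -/
theorem cross_le {Φ : ElectronState n} {Ψ : ElectronState (n + 1)}
    (G : R3 → ℝ) (hG : ContDiff ℝ ∞ G) (C : ℝ) (hC : ∀ x, |G x| ≤ C)
    (hC' : ∀ k x, |fderiv ℝ G x (e3 k)| ≤ C) {lam η : ℝ} (hη : 0 < η)
    (hi : ∀ s, Integrable fun z : Conf (n + 1) =>
      crossW z ^ 2 * (G (z 0) ^ 2 * ‖(pPart Φ Ψ).amp s z‖ ^ 2)) :
    -(lam * (Fam.pot crossW ((qPart Φ Ψ).mulG2 G hG C hC hC').toFam (pPart Φ Ψ)).re) ≤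
      (η / 2) * ((qPart Φ Ψ).mulG G hG C hC hC').nsq + (lam ^ 2 / (2 * η)) *
        ∑ s, ∫ z, crossW z ^ 2 * (G (z 0) ^ 2 * ‖(pPart Φ Ψ).amp s z‖ ^ 2) := by
  set D := qPart Φ Ψ with hD
  set P := pPart Φ Ψ with hP
  unfold Fam.pot PState.nsq
  rw [Complex.re_sum, Finset.mul_sum, Finset.mul_sum, Finset.mul_sum, ← Finset.sum_neg_distrib,
    ← Finset.sum_add_distrib]
  refine Finset.sum_le_sum fun s _ => ?_
  have i1 : Integrable fun z => ‖(D.mulG G hG C hC hC').amp s z‖ ^ 2 :=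
    ((D.mulG G hG C hC hC').amp_memLp s).integrable_norm_pow (by norm_num)
  rw [re_integral (Fam.int_pot adm_crossW _ _ _), ← integral_const_mul, ← integral_const_mul,
    ← integral_const_mul, ← integral_neg, ← integral_add (i1.const_mul _) ((hi s).const_mul _)]
  refine integral_mono ?_ ((i1.const_mul _).add ((hi s).const_mul _)) fun z => ?_
  · exact ((Fam.int_pot adm_crossW _ _ _).re.const_mul lam).neg
  · simp only
    have e : (D.mulG2 G hG C hC hC').toFam.amp s z = ((G (z 0) ^ 2 : ℝ) : ℂ) * D.amp s z := rfl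
    rw [e, mulG_amp]
    generalize G (z 0) = g
    generalize D.amp s z = a
    generalize P.amp s z = b
    generalize crossW z = w
    have h1 : -(lam * ((w : ℂ) * (conj (((g ^ 2 : ℝ) : ℂ) * a) * b)).re) ≤
        |lam| * (|w| * (g ^ 2 * (‖a‖ * ‖b‖))) := by
      have h2 : |((w : ℂ) * (conj (((g ^ 2 : ℝ) : ℂ) * a) * b)).re| ≤
          |w| * (g ^ 2 * (‖a‖ * ‖b‖)) := by
        refine (Complex.abs_re_le_norm _).trans (le_of_eq ?_)
        simp only [norm_mul, Complex.norm_real, RCLike.norm_conj, Real.norm_eq_abs, abs_pow, sq_abs]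
        ring
      refine (neg_le_abs _).trans ?_
      rw [abs_mul]
      exact mul_le_mul_of_nonneg_left h2 (abs_nonneg _)
    refine h1.trans ?_
    have h3 : ‖(g : ℂ) * a‖ ^ 2 = g ^ 2 * ‖a‖ ^ 2 := by
      rw [norm_mul, Complex.norm_real, mul_pow, Real.norm_eq_abs, sq_abs]
    rw [h3]
    have h4 : η / 2 * (g ^ 2 * ‖a‖ ^ 2) + lam ^ 2 / (2 * η) * (w ^ 2 * (g ^ 2 * ‖b‖ ^ 2)) -
        |lam| * (|w| * (g ^ 2 * (‖a‖ * ‖b‖))) =
        (1 / (2 * η)) * (g ^ 2 * (η * ‖a‖ - |lam| * |w| * ‖b‖) ^ 2) := by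
      rw [← sq_abs lam, ← sq_abs w]
      field_simp
      ring
    have h5 : 0 ≤ (1 / (2 * η)) * (g ^ 2 * (η * ‖a‖ - |lam| * |w| * ‖b‖) ^ 2) := by positivity
    linarith

end

end Vale.Agent.P363.R801
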