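import Vale.Agent.P363.R801.Tensor

/-! The `Q`-part `D = Ψ - d Φ` (with `d` the Dyson amplitude) of a state, as a partially
antisymmetric state with slices orthogonal to `Φ`. -/

namespace Vale.Agent.P363.R801

open MeasureTheory Filter Topology
open Vale.Agent.P363.Stmt
open Vale.Agent.P363.H382
open Vale.Agent.P363.H943
open Vale.Agent.P363.R.Sob
open Vale.Agent.P363.R.Top
open scoped ContDiff ENNReal ComplexConjugate

set_option linter.unusedSectionVars false

noncomputable section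

variable {n : ℕ}

theorem isWD_finsetSum {E F ι : Type*} [NormedAddCommGroup E] [NormedSpace ℝ E]
    [FiniteDimensional ℝ E] [MeasurableSpace E] [BorelSpace E] [NormedAddCommGroup F]
    [NormedSpace ℝ F] [CompleteSpace F] {μ : Measure E} [μ.IsAddHaarMeasure] {v : E}
    (S : Finset ι) {f g : ι → E → F} (h : ∀ i ∈ S, IsWD μ v (f i) (g i))
    (hf : ∀ i ∈ S, LocallyIntegrable (f i) μ) (hg : ∀ i ∈ S, LocallyIntegrable (g i) μ) :
    IsWD μ v (fun x => ∑ i ∈ S, f i x) (fun x => ∑ i ∈ S, g i x) := by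
  intro φ hφ
  simp only [Finset.smul_sum]
  rw [integral_finsetSum _ fun i hi => (hφ.fderiv v).integrable_smul (hf i hi),
    integral_finsetSum _ fun i hi => hφ.integrable_smul (hg i hi), ← Finset.sum_neg_distrib]
  exact Finset.sum_congr rfl fun i hi => h i hi φ hφ

section dys

variable (Φ : ElectronState n) (u : Fam (n + 1))

/-- Dyson amplitude of a family -/
def dysF (a : Fin 2) (x : R3) : ℂ :=
  ∑ s, contr (Φ.amp s) (u.amp (Fin.cons a s)) x

/-- its derivative -/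
def dysG (a : Fin 2) (k : Fin 3) (x : R3) : ℂ :=
  ∑ s, contr (Φ.amp s) (u.grad (Fin.cons a s) 0 k) x

theorem dysF_mem (a : Fin 2) : MemLp (dysF Φ u a) 2 volume := by
  have h : MemLp (fun x => ∑ s, contr (Φ.amp s) (u.amp (Fin.cons a s)) x) 2 volume :=
    memLp_finsetSum _ fun s _ => memLp_contr (Φ.amp_memLp s) (u.amp_mem _)
  exact h

theorem dysG_mem (a : Fin 2) (k : Fin 3) : MemLp (dysG Φ u a k) 2 volume := by
  have h : MemLp (fun x => ∑ s, contr (Φ.amp s) (u.grad (Fin.cons a s) 0 k) x) 2 volume :=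
    memLp_finsetSum _ fun s _ => memLp_contr (Φ.amp_memLp s) (u.grad_mem _ _ _)
  exact h

theorem dys_wd (a : Fin 2) (k : Fin 3) : IsWD volume (e3 k) (dysF Φ u a) (dysG Φ u a k) := by
  refine isWD_finsetSum Finset.univ (fun s _ => ?_) (fun s _ => ?_) (fun s _ => ?_)
  · exact isWD_contr (Φ.amp_memLp s) (u.amp_mem _) (u.grad_mem _ _ _) (u.wd _ _ _)
  · exact (memLp_contr (Φ.amp_memLp s) (u.amp_mem _)).locallyIntegrable (by norm_num)
  · exact (memLp_contr (Φ.amp_memLp s) (u.grad_mem _ _ _)).locallyIntegrable (by norm_num)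

end dys

theorem dyson_eq (Φ : ElectronState n) (Ψ : ElectronState (n + 1)) (a : Fin 2) :
    dyson Φ Ψ a = dysF Φ (fam Ψ) a := rfl

/-- the slices of `u` are orthogonal to `Φ` -/
def Orth (Φ : ElectronState n) (u : PState n) : Prop :=
  ∀ᵐ x : R3, ∀ a : Fin 2, dysF Φ u.toFam a x = 0

theorem Orth.grad {Φ : ElectronState n} {u : PState n} (h : Orth Φ u) :
    ∀ᵐ x : R3, ∀ (a : Fin 2) (k : Fin 3), dysG Φ u.toFam a k x = 0 := by
  rw [ae_all_iff]; intro a
  rw [ae_all_iff]; intro k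
  have h0 : dysF Φ u.toFam a =ᵐ[volume] fun _ => (0 : ℂ) := by
    filter_upwards [h] with x hx using hx a
  have h1 := (dys_wd Φ u.toFam a k).congr h0 (EventuallyEq.refl _ _)
  exact IsWD.unique h1 isWD_zero ((dysG_mem Φ u.toFam a k).locallyIntegrable (by norm_num))
    (locallyIntegrable_const _)

theorem Orth.mulG {Φ : ElectronState n} {u : PState n} (h : Orth Φ u) (G : R3 → ℝ)
    (hG : ContDiff ℝ ∞ G) (C : ℝ) (hC : ∀ x, |G x| ≤ C)
    (hC' : ∀ k x, |fderiv ℝ G x (e3 k)| ≤ C) : Orth Φ (u.mulG G hG C hC hC') := by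
  filter_upwards [h] with x hx a
  have h1 := hx a
  unfold dysF contr at h1 ⊢
  have e : ∀ s, ∫ y : Conf n, conj (Φ.amp s y) *
      (u.mulG G hG C hC hC').toFam.amp (Fin.cons a s) (Fin.cons x y) =
      (G x : ℂ) * ∫ y : Conf n, conj (Φ.amp s y) * u.toFam.amp (Fin.cons a s) (Fin.cons x y) := by
    intro s
    rw [← integral_const_mul]
    congr 1
    funext y
    simp only [PState.toFam, PState.mulG, Fin.cons_zero]
    ring
  simp only [e, ← Finset.mul_sum, h1, mul_zero]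

/-- a.e. slice integrability -/
theorem ae_int_contr {g : Conf n → ℂ} {f : Conf (n + 1) → ℂ} (hg : MemLp g 2 volume)
    (hf : MemLp f 2 volume) : ∀ᵐ x : R3, Integrable (fun y => conj (g y) * f (Fin.cons x y)) := by
  filter_upwards [ae_memLp_rest hf] with x hx
  exact hg.star.integrable_mul hx

section Qpart

variable (Φ : ElectronState n) (Ψ : ElectronState (n + 1))

/-- the product part `d Φ` -/
def pPart : Fam (n + 1) :=
  prodFam 0 (dysF Φ (fam Ψ) 0) (dysG Φ (fam Ψ) 0) (dysF_mem Φ (fam Ψ) 0) (dysG_mem Φ (fam Ψ) 0)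
    (dys_wd Φ (fam Ψ) 0) Φ

theorem pPart_amp (s : Fin n → Fin 2) (a : Fin 2) (x : R3) (y : Conf n) :
    (pPart Φ Ψ).amp (Fin.cons a s) (Fin.cons x y) =
      if a = 0 then dysF Φ (fam Ψ) 0 x * Φ.amp s y else 0 := by
  unfold pPart prodFam
  simp only [Fin.cons_zero, tls_cons]
  split_ifs <;> simp [tens]

/-- the `Q`-part `D = Ψ - d Φ` -/
def qPart : PState n where
  amp s z := Ψ.amp s z - (pPart Φ Ψ).amp s z
  grad s i k z := Ψ.grad s i k z - (pPart Φ Ψ).grad s i k z
  amp_memLp s := MemLp.sub (Ψ.amp_memLp s) ((pPart Φ Ψ).amp_mem s)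
  grad_memLp s i k := MemLp.sub (Ψ.grad_memLp s i k) ((pPart Φ Ψ).grad_mem s i k)
  grad_wd s i k := IsWD.sub (isWeakDeriv_iff.1 (Ψ.grad_weak s i k)) ((pPart Φ Ψ).wd s i k)
    (MemLp.locallyIntegrable (Ψ.amp_memLp s) (by norm_num))
    (MemLp.locallyIntegrable (Ψ.grad_memLp s i k) (by norm_num))
    (MemLp.locallyIntegrable ((pPart Φ Ψ).amp_mem s) (by norm_num))
    (MemLp.locallyIntegrable ((pPart Φ Ψ).grad_mem s i k) (by norm_num))
  antisymm σ a s := by
    have h1 := (PState.ofES Ψ).antisymm σ a s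
    have h2 : ∀ᵐ y : Conf n, Φ.amp (s ∘ σ) (y ∘ σ) = ((Equiv.Perm.sign σ : ℤ) : ℂ) * Φ.amp s y :=
      Φ.antisymm σ s
    have h3 := (Measure.quasiMeasurePreserving_snd (μ := (volume : Measure R3))
      (ν := (volume : Measure (Conf n)))).ae h2
    filter_upwards [h1, h3] with p hp1 hp3
    have e : (PState.ofES Ψ).amp = Ψ.amp := rfl
    rw [e] at hp1
    rw [hp1, pPart_amp, pPart_amp]
    split_ifs
    · rw [hp3]; ring
    · ring

theorem qPart_amp (s : Fin n → Fin 2) (a : Fin 2) (x : R3) (y : Conf n) :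
    (qPart Φ Ψ).amp (Fin.cons a s) (Fin.cons x y) = Ψ.amp (Fin.cons a s) (Fin.cons x y) -
      if a = 0 then dysF Φ (fam Ψ) 0 x * Φ.amp s y else 0 := by
  rw [← pPart_amp]; rfl

theorem sum_integral_conj (hΦ : normSq Φ = 1) :
    ∑ s, ∫ y : Conf n, conj (Φ.amp s y) * Φ.amp s y = 1 := by
  have h : ∀ s, ∫ y : Conf n, conj (Φ.amp s y) * Φ.amp s y =
      ((∫ y : Conf n, ‖Φ.amp s y‖ ^ 2 : ℝ) : ℂ) := by
    intro s
    rw [← integral_complex_ofReal]
    congr 1
    funext y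
    rw [mul_comm, Complex.mul_conj']
    push_cast
    rfl
  simp only [h]
  rw [← Complex.ofReal_sum]
  unfold normSq at hΦ
  simp only [intR_eq] at hΦ
  rw [hΦ]
  simp

/-- the slices of the `Q`-part are orthogonal to `Φ` -/
theorem qPart_orth (hΦ : normSq Φ = 1) (hz : ∀ᵐ x, dyson Φ Ψ 1 x = 0) :
    Orth Φ (qPart Φ Ψ) := by
  have hi : ∀ᵐ x : R3, ∀ (a : Fin 2) (s : Fin n → Fin 2),
      Integrable (fun y => conj (Φ.amp s y) * Ψ.amp (Fin.cons a s) (Fin.cons x y)) := by
    rw [ae_all_iff]; intro a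
    rw [ae_all_iff]; intro s
    exact ae_int_contr (Φ.amp_memLp s) (Ψ.amp_memLp _)
  filter_upwards [hi, hz] with x hx hzx a
  have hiΦ : ∀ s, Integrable (fun y => conj (Φ.amp s y) * Φ.amp s y) := fun s =>
    (fam Φ).int_amp (fam Φ) s
  have e : dysF Φ (qPart Φ Ψ).toFam a x = dysF Φ (fam Ψ) a x -
      if a = 0 then dysF Φ (fam Ψ) 0 x else 0 := by
    have e1 : ∀ s, contr (Φ.amp s) ((qPart Φ Ψ).toFam.amp (Fin.cons a s)) x =
        contr (Φ.amp s) ((fam Ψ).amp (Fin.cons a s)) x -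
          (if a = 0 then dysF Φ (fam Ψ) 0 x else 0) * ∫ y : Conf n, conj (Φ.amp s y) * Φ.amp s y := by
      intro s
      unfold contr
      simp only [fam_amp]
      rw [← integral_const_mul, ← integral_sub (hx a s) ((hiΦ s).const_mul _)]
      congr 1
      funext y
      have : (qPart Φ Ψ).toFam.amp (Fin.cons a s) (Fin.cons x y) =
        (qPart Φ Ψ).amp (Fin.cons a s) (Fin.cons x y) := rfl
      rw [this, qPart_amp]
      split_ifs <;> ring
    unfold dysF
    simp only [e1]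
    rw [Finset.sum_sub_distrib, ← Finset.mul_sum, sum_integral_conj Φ hΦ, mul_one]
    rfl
  rw [e]
  fin_cases a
  · simp
  · have : dysF Φ (fam Ψ) 1 x = 0 := hzx
    simp [this]

/-- `Ψ = D + d Φ` -/
theorem fam_eq_add : Fam.AEq (fam Ψ) ((qPart Φ Ψ).toFam.add (pPart Φ Ψ)) := by
  refine Fam.AEq.of_amp fun s => Eventually.of_forall fun x => ?_
  simp [Fam.add, PState.toFam, qPart]

end Qpart

end

end Vale.Agent.P363.R801
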