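import Vale.Agent.P363.R801.QFinal
import Vale.Agent.P363.R.B5.h924.Mult
import Vale.Agent.P363.R.B5.Far

/-! B5.6 (`q_small`) and B5 (`b5_far`), unconditional. -/

namespace Vale.Agent.P363.R801

open MeasureTheory Filter Topology Metric
open Vale.Agent.P363.Stmt
open Vale.Agent.P363.R.Top
open Vale.Agent.P363.B5

noncomputable section

/-- B5.6: the `Q` channel. -/
theorem q_small (κ : ℝ) : ∃ ε > 0, ∀ lam, 0 < lam → lam < ε →
    ∀ (Φ : ElectronState 4) (Ψ : ElectronState 5), AtomPair κ lam ε Φ Ψ →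
      ∀ c1 C1 R, TwoSided (kOf lam Φ Ψ) (sOf lam Φ Ψ) c1 C1 R (dyson Φ Ψ 0) →
        ∃ C R', QSmall (kOf lam Φ Ψ) (sOf lam Φ Ψ) C R' (dyson Φ Ψ 0) (density Ψ) := by
  obtain ⟨ε, hε, CB, _, hB⟩ := R.B5.mult_final κ
  refine ⟨min ε (1 / 16), by positivity, fun lam hl hl' Φ Ψ P c1 C1 R T => ?_⟩
  exact q_small_of hl (min_le_right _ _) P
    (hB lam hl (hl'.trans_le (min_le_left _ _)) Φ Ψ (P.mono (min_le_left _ _))) T

/-- B5 (assembly). -/
theorem b5_far (κ : ℝ) (hκ : 0 < κ) : ∃ ε > 0, ∀ lam, 0 < lam → lam < ε →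
    ∀ (Φ : ElectronState 4) (Ψ : ElectronState 5), AtomPair κ lam ε Φ Ψ →
      FarKink (density Ψ) :=
  b5_far_of κ hκ (q_small κ)

end

end Vale.Agent.P363.R801
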