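import Vale.Agent.P363.R.B5.Flux
import Vale.Agent.P363.H700.Orb
import Vale.Agent.P363.R801.QIMS

/-! Scalar weights for the `Q`-channel estimate. -/

namespace Vale.Agent.P363.R801

open MeasureTheory Filter Topology
open Vale.Agent.P363.Stmt
open Vale.Agent.P363.R.Sob
open Vale.Agent.P363.H382
open Vale.Agent.P363.H943
open Vale.Agent.P363.B5
open scoped ContDiff ENNReal

noncomputable section

theorem log_le_lin {M a : ℝ} (hM : 0 ≤ M) (ha : 0 < a) :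
    ∃ C, ∀ t, 0 ≤ t → M * Real.log (1 + t) ≤ a * t + C := by
  refine ⟨a - (M + 1) - (M + 1) * Real.log (a / (M + 1)), fun t ht => ?_⟩
  have hM1 : 0 < M + 1 := by linarith
  have h1 : 0 ≤ Real.log (1 + t) := Real.log_nonneg (by linarith)
  have h2 : Real.log (a / (M + 1) * (1 + t)) ≤ a / (M + 1) * (1 + t) - 1 :=
    Real.log_le_sub_one_of_pos (by positivity)
  rw [Real.log_mul (by positivity) (by positivity)] at h2
  have h3 : (M + 1) * (a / (M + 1) * (1 + t)) = a * (1 + t) := by field_simp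
  have h4 := mul_le_mul_of_nonneg_left h2 hM1.le
  nlinarith

theorem log_diff {r ρ t : ℝ} (hr : 1 ≤ r) (hρ : 1 ≤ ρ) (h : |r - ρ| ≤ t) :
    |Real.log r - Real.log ρ| ≤ Real.log (1 + t) := by
  have ht : 0 ≤ t := (abs_nonneg _).trans h
  have h1 := abs_le.1 h
  have key : ∀ a b : ℝ, 1 ≤ a → 1 ≤ b → a ≤ b + t → Real.log a - Real.log b ≤ Real.log (1 + t) := by
    intro a b ha hb hab
    have : a ≤ b * (1 + t) := by nlinarith
    have h2 := Real.log_le_log (by linarith) this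
    rw [Real.log_mul (by positivity) (by positivity)] at h2
    linarith
  rw [abs_le]
  constructor
  · linarith [key ρ r hρ hr (by linarith)]
  · exact key r ρ hr hρ (by linarith)

theorem Xw (k s : ℝ) {r : ℝ} (hr : 0 < r) :
    ((Xf k s r)⁻¹) ^ 2 / r ^ 8 = Real.exp (-(2 * k * r) + (2 * s - 8) * Real.log r) := by
  have h8 : r ^ 8 = Real.exp (8 * Real.log r) := by
    rw [show (8 : ℝ) = ((8 : ℕ) : ℝ) by norm_num, Real.exp_nat_mul, Real.exp_log hr]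
  unfold Xf
  rw [h8, ← Real.exp_neg, ← Real.exp_nat_mul, ← Real.exp_sub]
  congr 1
  push_cast
  ring

/-- main comparison of the weights -/
theorem weight_main {k k' : ℝ} (s : ℝ) (hk : 0 ≤ k) (hkk : k < k') :
    ∃ K, 0 ≤ K ∧ ∀ p x : R3, 1 ≤ ‖p‖ → 1 ≤ ‖x‖ →
      Real.exp (-(2 * k' * ‖x - p‖)) * (((Xf k s ‖x‖)⁻¹) ^ 2 / ‖x‖ ^ 8) * ‖x - p‖ ^ 2 ≤
        K * (((Xf k s ‖p‖)⁻¹) ^ 2 / ‖p‖ ^ 8) * Real.exp (-((k' - k) * ‖x - p‖)) := by
  set b : ℝ := (k' - k) / 2 with hb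
  have hb0 : 0 < b := by rw [hb]; linarith
  obtain ⟨C, hC⟩ := log_le_lin (abs_nonneg (2 * s - 8)) hb0
  refine ⟨2 / b ^ 2 * Real.exp C, by positivity, fun p x hp hx => ?_⟩
  set t := ‖x - p‖ with ht
  have ht0 : 0 ≤ t := norm_nonneg _
  have h1 : |‖x‖ - ‖p‖| ≤ t := abs_norm_sub_norm_le x p
  have h2 := log_diff hx hp h1
  have h3 : (2 * s - 8) * (Real.log ‖x‖ - Real.log ‖p‖) ≤ |2 * s - 8| * Real.log (1 + t) :=
    (le_abs_self _).trans (by rw [abs_mul]; exact mul_le_mul_of_nonneg_left h2 (abs_nonneg _))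
  have h4 := hC t ht0
  have h5 : t ^ 2 ≤ 2 / b ^ 2 * Real.exp (b * t) := by
    have := Real.quadratic_le_exp_of_nonneg (x := b * t) (by positivity)
    have h6 : b ^ 2 * t ^ 2 ≤ 2 * Real.exp (b * t) := by nlinarith [mul_nonneg hb0.le ht0]
    rw [div_mul_eq_mul_div, le_div_iff₀ (by positivity)]
    linarith
  rw [Xw k s (by linarith : (0 : ℝ) < ‖x‖), Xw k s (by linarith : (0 : ℝ) < ‖p‖), ← Real.exp_add]
  have h6 : k * ‖p‖ ≤ k * (‖x‖ + t) := by
    refine mul_le_mul_of_nonneg_left ?_ hk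
    linarith [(abs_le.1 h1).1]
  calc Real.exp (-(2 * k' * t) + (-(2 * k * ‖x‖) + (2 * s - 8) * Real.log ‖x‖)) * t ^ 2
      ≤ Real.exp (-(2 * k' * t) + (-(2 * k * ‖x‖) + (2 * s - 8) * Real.log ‖x‖)) *
          (2 / b ^ 2 * Real.exp (b * t)) := mul_le_mul_of_nonneg_left h5 (Real.exp_pos _).le
    _ = 2 / b ^ 2 * Real.exp (-(2 * k' * t) + (-(2 * k * ‖x‖) + (2 * s - 8) * Real.log ‖x‖) +
          b * t) := by rw [Real.exp_add _ (b * t)]; ring
    _ ≤ 2 / b ^ 2 * Real.exp (C + (-(2 * k * ‖p‖) + (2 * s - 8) * Real.log ‖p‖) +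
          -((k' - k) * t)) := by
        refine mul_le_mul_of_nonneg_left (Real.exp_le_exp.2 ?_) (by positivity)
        have hb' : k' - k = 2 * b := by rw [hb]; ring
        nlinarith
    _ = _ := by rw [Real.exp_add, Real.exp_add]; ring

theorem weight_far {k k' : ℝ} (s : ℝ) (hkk : k < k') :
    ∃ K, 0 ≤ K ∧ ∀ r : ℝ, 1 ≤ r → Real.exp (-(2 * k' * r)) ≤
      K * (((Xf k s r)⁻¹) ^ 2 / r ^ 8) := by
  obtain ⟨C, hC⟩ := log_le_lin (abs_nonneg (2 * s - 8)) (sub_pos.2 hkk)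
  refine ⟨Real.exp C, (Real.exp_pos _).le, fun r hr => ?_⟩
  rw [Xw k s (by linarith), ← Real.exp_add]
  refine Real.exp_le_exp.2 ?_
  have h1 : 0 ≤ Real.log r := Real.log_nonneg hr
  have h2 : Real.log r ≤ Real.log (1 + r) := Real.log_le_log (by linarith) (by linarith)
  have h3 := hC r (by linarith)
  have h4 : -((2 * s - 8) * Real.log r) ≤ |2 * s - 8| * Real.log (1 + r) := by
    refine (neg_le_abs _).trans ?_
    rw [abs_mul, abs_of_nonneg h1]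
    exact mul_le_mul_of_nonneg_left h2 (abs_nonneg _)
  nlinarith

theorem integrable_exp_shift {a : ℝ} (ha : 0 < a) (p : R3) :
    Integrable (fun x : R3 => Real.exp (-(a * ‖x - p‖))) := by
  have h := (H700.integrable_pow_exp 0 ha).comp_sub_right p
  simpa using h

theorem integral_exp_shift (a : ℝ) (p : R3) :
    ∫ x : R3, Real.exp (-(a * ‖x - p‖)) = ∫ x : R3, Real.exp (-(a * ‖x‖)) :=
  integral_sub_right_eq_self (fun x : R3 => Real.exp (-(a * ‖x‖))) p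

/-! ### the exponential weight -/

/-- smooth version of `exp (-k' |x - p|)` -/
def Ew (k' : ℝ) (p x : R3) : ℝ := Real.exp (-(k' * Real.sqrt (1 + ‖x - p‖ ^ 2)))

theorem Ew_pos (k' : ℝ) (p x : R3) : 0 < Ew k' p x := Real.exp_pos _

theorem Ew_contDiff (k' : ℝ) (p : R3) : ContDiff ℝ ∞ (Ew k' p) := by
  unfold Ew
  refine ContDiff.exp (ContDiff.neg (contDiff_const.mul (ContDiff.sqrt ?_ fun x => ?_)))
  · exact contDiff_const.add ((contDiff_norm_sq ℝ).comp (contDiff_id.sub contDiff_const))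
  · positivity

theorem Ew_fderiv (k' : ℝ) (p x v : R3) : fderiv ℝ (Ew k' p) x v =
    -(k' * (inner ℝ (x - p) v / Real.sqrt (1 + ‖x - p‖ ^ 2))) * Ew k' p x := by
  have h0 : HasFDerivAt (fun x : R3 => x - p) (ContinuousLinearMap.id ℝ R3) x :=
    (hasFDerivAt_id x).sub_const p
  have h1 : HasFDerivAt (fun x : R3 => 1 + ‖x - p‖ ^ 2)
      (2 • (innerSL ℝ (x - p)).comp (ContinuousLinearMap.id ℝ R3)) x :=
    (h0.norm_sq).const_add 1
  have h2 := h1.sqrt (by positivity : (1 + ‖x - p‖ ^ 2 : ℝ) ≠ 0)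
  have h3 := (h2.const_mul (-k')).exp
  have h4 : HasFDerivAt (Ew k' p) _ x := h3.congr_of_eventuallyEq
    (Eventually.of_forall fun y => by simp only [Ew, neg_mul])
  rw [h4.fderiv]
  simp only [smul_apply, ContinuousLinearMap.comp_apply, ContinuousLinearMap.id_apply,
    innerSL_apply_apply, smul_eq_mul, Ew, neg_mul, nsmul_eq_mul, Nat.cast_ofNat]
  have : Real.sqrt (1 + ‖x - p‖ ^ 2) ≠ 0 := (Real.sqrt_pos.2 (by positivity)).ne'
  field_simp

theorem sum_inner_sq (w : R3) : ∑ k : Fin 3, (inner ℝ w (e3 k)) ^ 2 = ‖w‖ ^ 2 := by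
  rw [EuclideanSpace.real_norm_sq_eq]
  refine Finset.sum_congr rfl fun k _ => ?_
  simp [e3, EuclideanSpace.inner_single_right]

theorem Ew_grad_le (k' : ℝ) (p x : R3) :
    ∑ k : Fin 3, (fderiv ℝ (Ew k' p) x (e3 k)) ^ 2 ≤ k' ^ 2 * Ew k' p x ^ 2 := by
  have e : ∀ k : Fin 3, (fderiv ℝ (Ew k' p) x (e3 k)) ^ 2 =
      (k' ^ 2 * Ew k' p x ^ 2 / (1 + ‖x - p‖ ^ 2)) * (inner ℝ (x - p) (e3 k)) ^ 2 := by
    intro k
    have h2 : Real.sqrt (1 + ‖x - p‖ ^ 2) ^ 2 = 1 + ‖x - p‖ ^ 2 := Real.sq_sqrt (by positivity)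
    rw [Ew_fderiv, neg_mul, neg_sq, mul_pow, mul_pow, div_pow, h2]
    ring
  simp only [e]
  rw [← Finset.mul_sum, sum_inner_sq, div_mul_eq_mul_div, div_le_iff₀ (by positivity)]
  have : 0 ≤ k' ^ 2 * Ew k' p x ^ 2 := by positivity
  nlinarith

theorem Ew_le_one {k' : ℝ} (hk : 0 ≤ k') (p x : R3) : Ew k' p x ≤ 1 := by
  unfold Ew
  rw [Real.exp_le_one_iff]
  have := Real.sqrt_nonneg (1 + ‖x - p‖ ^ 2)
  nlinarith [mul_nonneg hk this]

theorem Ew_fderiv_le {k' : ℝ} (hk : 0 ≤ k') (p x : R3) (k : Fin 3) :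
    |fderiv ℝ (Ew k' p) x (e3 k)| ≤ k' := by
  have h1 := Ew_grad_le k' p x
  have h2 : (fderiv ℝ (Ew k' p) x (e3 k)) ^ 2 ≤
      ∑ k : Fin 3, (fderiv ℝ (Ew k' p) x (e3 k)) ^ 2 :=
    Finset.single_le_sum (f := fun k : Fin 3 => (fderiv ℝ (Ew k' p) x (e3 k)) ^ 2)
      (fun _ _ => sq_nonneg _) (Finset.mem_univ k)
  have h3 := Ew_le_one hk p x
  have h4 := Ew_pos k' p x
  refine abs_le_of_sq_le_sq ?_ hk
  nlinarith [mul_le_mul_of_nonneg_left (show Ew k' p x ^ 2 ≤ 1 by nlinarith) (sq_nonneg k')]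

theorem Ew_sq_le {k' : ℝ} (hk : 0 ≤ k') (p x : R3) :
    Ew k' p x ^ 2 ≤ Real.exp (-(2 * k' * ‖x - p‖)) := by
  unfold Ew
  rw [← Real.exp_nat_mul]
  refine Real.exp_le_exp.2 ?_
  have h1 : ‖x - p‖ ≤ Real.sqrt (1 + ‖x - p‖ ^ 2) :=
    Real.le_sqrt_of_sq_le (by linarith)
  push_cast
  nlinarith [mul_le_mul_of_nonneg_left h1 hk]

theorem Ew_sq_ge {k' : ℝ} (hk : 0 ≤ k') {p x : R3} (h : ‖x - p‖ ≤ 2) :
    Real.exp (-(6 * k')) ≤ Ew k' p x ^ 2 := by
  unfold Ew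
  rw [← Real.exp_nat_mul]
  refine Real.exp_le_exp.2 ?_
  have h1 : Real.sqrt (1 + ‖x - p‖ ^ 2) ≤ 3 := by
    rw [Real.sqrt_le_left (by norm_num)]
    nlinarith [norm_nonneg (x - p)]
  push_cast
  nlinarith [mul_le_mul_of_nonneg_left h1 hk]

/-- smooth cutoff away from the nucleus -/
theorem exists_cut {R : ℝ} (hR : 0 < R) : ∃ χ : R3 → ℝ, ContDiff ℝ ∞ χ ∧ (∀ x, |χ x| ≤ 1) ∧
    (∀ x, ‖x‖ ≤ R → χ x = 0) ∧ (∀ x, R + 1 ≤ ‖x‖ → χ x = 1) ∧
    ∃ M, 0 ≤ M ∧ (∀ (k : Fin 3) (x : R3), |fderiv ℝ χ x (e3 k)| ≤ M) ∧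
      ∀ (k : Fin 3) (x : R3), R + 1 < ‖x‖ → fderiv ℝ χ x (e3 k) = 0 := by
  let f : ContDiffBump (0 : R3) := ⟨R, R + 1, hR, by linarith⟩
  have hf : ContDiff ℝ ∞ (f : R3 → ℝ) := f.contDiff
  have hd : ∀ x, fderiv ℝ (fun x => 1 - f x) x = -fderiv ℝ (f : R3 → ℝ) x := by
    intro x
    have h : HasFDerivAt (f : R3 → ℝ) (fderiv ℝ (f : R3 → ℝ) x) x :=
      (hf.differentiable (by simp) x).hasFDerivAt
    exact (h.const_sub 1).fderiv
  refine ⟨fun x => 1 - f x, contDiff_const.sub hf, fun x => ?_, fun x hx => ?_, fun x hx => ?_, ?_⟩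
  · rw [abs_le]
    constructor <;> linarith [f.nonneg (x := x), f.le_one (x := x)]
  · have := f.one_of_mem_closedBall (x := x) (by simpa using hx)
    simp only [this, sub_self]
  · have := f.zero_of_le_dist (x := x) (by simpa using hx)
    simp only [this, sub_zero]
  · have hc : HasCompactSupport (fderiv ℝ (f : R3 → ℝ)) := f.hasCompactSupport.fderiv ℝ
    obtain ⟨M, hM⟩ := hc.exists_bound_of_continuous (hf.continuous_fderiv (by simp))
    refine ⟨M, (norm_nonneg _).trans (hM 0), fun k x => ?_, fun k x hx => ?_⟩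
    · rw [hd]
      rw [neg_apply, abs_neg, ← Real.norm_eq_abs]
      refine ((fderiv ℝ (f : R3 → ℝ) x).le_opNorm _).trans ?_
      have : ‖(e3 k : R3)‖ = 1 := by simp [e3]
      rw [this, mul_one]
      exact hM x
    · rw [hd]
      have h0 : (f : R3 → ℝ) =ᶠ[𝓝 x] fun _ => (0 : ℝ) := by
        have ho : IsOpen {x : R3 | R + 1 < ‖x‖} := isOpen_lt continuous_const continuous_norm
        filter_upwards [ho.mem_nhds hx] with y hy
        exact f.zero_of_le_dist (by simpa using (le_of_lt hy))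
      rw [h0.fderiv_eq]
      simp

end

end Vale.Agent.P363.R801
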