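import Vale.Agent.P363.R.Sob.Density
import Vale.Agent.P363.R.Sob.S01

/-! Slices of weakly differentiable functions on a product space. -/

namespace Vale.Agent.P363.R801

open MeasureTheory Filter Topology
open Vale.Agent.P363.R.Sob
open scoped ContDiff ENNReal

set_option linter.unusedSectionVars false

noncomputable section

variable {E₁ E₂ : Type*} [NormedAddCommGroup E₁] [NormedSpace ℝ E₁] [FiniteDimensional ℝ E₁]
  [MeasurableSpace E₁] [BorelSpace E₁] [NormedAddCommGroup E₂] [NormedSpace ℝ E₂]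
  [FiniteDimensional ℝ E₂] [MeasurableSpace E₂] [BorelSpace E₂]
variable {F : Type*} [NormedAddCommGroup F] [NormedSpace ℝ F] [CompleteSpace F]
variable {μ₁ : Measure E₁} [μ₁.IsAddHaarMeasure] {μ₂ : Measure E₂} [μ₂.IsAddHaarMeasure]

/-- a.e. slices of an `L²` function are `L²` -/
theorem memLp_slice {f : E₁ × E₂ → F} (hf : MemLp f 2 (μ₁.prod μ₂)) :
    ∀ᵐ x ∂μ₁, MemLp (fun y => f (x, y)) 2 μ₂ := by
  have hm : AEStronglyMeasurable f (μ₁.prod μ₂) := hf.1
  have h1 := (memLp_two_iff_integrable_sq_norm hm).1 hf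
  have h2 := h1.prod_right_ae
  have h3 : ∀ᵐ x ∂μ₁, AEStronglyMeasurable (fun y => f (x, y)) μ₂ := hm.prodMk_left
  filter_upwards [h2, h3] with x hx hx3
  exact (memLp_two_iff_integrable_sq_norm hx3).2 hx

theorem eLpNorm_two_sq {α : Type*} [MeasurableSpace α] {μ : Measure α} (f : α → F) :
    eLpNorm f 2 μ ^ 2 = ∫⁻ x, ‖f x‖ₑ ^ 2 ∂μ := by
  rw [eLpNorm_eq_lintegral_rpow_enorm_toReal (by norm_num) (by norm_num)]
  simp only [ENNReal.toReal_ofNat, ENNReal.rpow_ofNat, one_div]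
  rw [← ENNReal.rpow_natCast, ← ENNReal.rpow_mul]
  norm_num

/-- from `L²` convergence on the product to `L²` convergence of the slices along a subsequence -/
theorem exists_subseq_slice {f g : E₁ × E₂ → F} {fn gn : ℕ → E₁ × E₂ → F}
    (hf : AEStronglyMeasurable f (μ₁.prod μ₂)) (hg : AEStronglyMeasurable g (μ₁.prod μ₂))
    (hfn : ∀ n, AEStronglyMeasurable (fn n) (μ₁.prod μ₂))
    (hgn : ∀ n, AEStronglyMeasurable (gn n) (μ₁.prod μ₂))
    (cf : Tendsto (fun n => eLpNorm (fn n - f) 2 (μ₁.prod μ₂)) atTop (𝓝 0))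
    (cg : Tendsto (fun n => eLpNorm (gn n - g) 2 (μ₁.prod μ₂)) atTop (𝓝 0)) :
    ∃ φ : ℕ → ℕ, StrictMono φ ∧ ∀ᵐ x ∂μ₁,
      Tendsto (fun n => eLpNorm ((fun y => fn (φ n) (x, y)) - fun y => f (x, y)) 2 μ₂) atTop (𝓝 0) ∧
      Tendsto (fun n => eLpNorm ((fun y => gn (φ n) (x, y)) - fun y => g (x, y)) 2 μ₂)
        atTop (𝓝 0) := by
  set h : ℕ → E₁ → ℝ≥0∞ := fun n x => eLpNorm ((fun y => fn n (x, y)) - fun y => f (x, y)) 2 μ₂ ^ 2
    + eLpNorm ((fun y => gn n (x, y)) - fun y => g (x, y)) 2 μ₂ ^ 2 with hh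
  have eq : ∀ n, h n = fun x => (∫⁻ y, ‖(fn n - f) (x, y)‖ₑ ^ 2 ∂μ₂) +
      ∫⁻ y, ‖(gn n - g) (x, y)‖ₑ ^ 2 ∂μ₂ := by
    intro n
    funext x
    simp only [hh]
    rw [eLpNorm_two_sq, eLpNorm_two_sq]
    rfl
  have mf : ∀ n, AEMeasurable (fun z => ‖(fn n - f) z‖ₑ ^ 2) (μ₁.prod μ₂) := fun n =>
    ((hfn n).sub hf).enorm.pow_const _
  have mg : ∀ n, AEMeasurable (fun z => ‖(gn n - g) z‖ₑ ^ 2) (μ₁.prod μ₂) := fun n =>
    ((hgn n).sub hg).enorm.pow_const _
  have int : ∀ n, ∫⁻ x, h n x ∂μ₁ = eLpNorm (fn n - f) 2 (μ₁.prod μ₂) ^ 2 +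
      eLpNorm (gn n - g) 2 (μ₁.prod μ₂) ^ 2 := by
    intro n
    rw [eq n, lintegral_add_left' ((mf n).lintegral_prod_right'), ← lintegral_prod _ (mf n),
      ← lintegral_prod _ (mg n), eLpNorm_two_sq, eLpNorm_two_sq]
  have mh : ∀ n, AEMeasurable (h n) μ₁ := by
    intro n
    rw [eq n]
    exact ((mf n).lintegral_prod_right').add ((mg n).lintegral_prod_right')
  have lim : Tendsto (fun n => ∫⁻ x, h n x ∂μ₁) atTop (𝓝 0) := by
    simp only [int]
    have h1 := ENNReal.Tendsto.pow (n := 2) cf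
    have h2 := ENNReal.Tendsto.pow (n := 2) cg
    simpa using h1.add h2
  -- subsequence
  have hsub : ∃ φ : ℕ → ℕ, StrictMono φ ∧ ∀ k, ∫⁻ x, h (φ k) x ∂μ₁ ≤ (2⁻¹ : ℝ≥0∞) ^ k := by
    refine extraction_forall_of_eventually
      (P := fun k n => ∫⁻ x, h n x ∂μ₁ ≤ (2⁻¹ : ℝ≥0∞) ^ k) fun k => ?_
    have hk : (0 : ℝ≥0∞) < (2⁻¹ : ℝ≥0∞) ^ k := ENNReal.pow_pos (by simp) k
    exact (lim.eventually (eventually_lt_nhds hk)).mono fun n hn => hn.le
  obtain ⟨φ, hφ, hk⟩ := hsub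
  refine ⟨φ, hφ, ?_⟩
  have hsum : ∫⁻ x, ∑' k, h (φ k) x ∂μ₁ ≠ ⊤ := by
    rw [lintegral_tsum fun k => mh (φ k)]
    refine ne_top_of_le_ne_top ?_ (ENNReal.tsum_le_tsum hk)
    rw [ENNReal.tsum_geometric]
    simp
  have hae : ∀ᵐ x ∂μ₁, ∑' k, h (φ k) x < ⊤ :=
    ae_lt_top' (AEMeasurable.tsum fun k => mh (φ k)) hsum
  filter_upwards [hae] with x hx
  have h0 : Tendsto (fun k => h (φ k) x) atTop (𝓝 0) :=
    ENNReal.tendsto_atTop_zero_of_tsum_ne_top hx.ne
  have key : ∀ u : ℕ → ℝ≥0∞, (∀ k, u k ^ 2 ≤ h (φ k) x) → Tendsto u atTop (𝓝 0) := by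
    intro u hu
    have h1 : Tendsto (fun k => u k ^ 2) atTop (𝓝 0) :=
      tendsto_of_tendsto_of_tendsto_of_le_of_le tendsto_const_nhds h0 (fun _ => zero_le) hu
    have h2 := (ENNReal.continuous_rpow_const (y := (1 / 2 : ℝ))).tendsto 0 |>.comp h1
    have e : ((fun x : ℝ≥0∞ => x ^ (1 / 2 : ℝ)) ∘ fun k => u k ^ 2) = u := by
      funext k
      simp only [Function.comp]
      rw [← ENNReal.rpow_natCast, ← ENNReal.rpow_mul]
      norm_num
    rw [e] at h2
    simpa using h2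
  exact ⟨key _ fun k => le_self_add, key _ fun k => le_add_self⟩

/-- SL1: a.e. slice of a function with an `L²` weak derivative in a direction of the second
factor. -/
theorem IsWD.slice {f g : E₁ × E₂ → F} {v : E₂} (hf : MemLp f 2 (μ₁.prod μ₂))
    (hg : MemLp g 2 (μ₁.prod μ₂)) (h : IsWD (μ₁.prod μ₂) ((0 : E₁), v) f g) :
    ∀ᵐ x ∂μ₁, IsWD μ₂ v (fun y => f (x, y)) (fun y => g (x, y)) := by
  obtain ⟨fn, sm, cs, cf, cg⟩ := exists_test_approx (ι := Unit) (b := fun _ => ((0 : E₁), v))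
    (g := fun _ => g) hf (fun _ => hg) (fun _ => h)
  have cg := cg ()
  have hc : ∀ n, Continuous (fun z => fderiv ℝ (fn n) z ((0 : E₁), v)) := fun n =>
    ((sm n).continuous_fderiv (by simp)).clm_apply continuous_const
  obtain ⟨φ, hφ, hae⟩ := exists_subseq_slice hf.1 hg.1
    (fun n => (sm n).continuous.aestronglyMeasurable) (fun n => (hc n).aestronglyMeasurable) cf cg
  filter_upwards [hae, memLp_slice hf, memLp_slice hg] with x hx hfx hgx
  have hslice : ∀ n, HasCompactSupport (fun y : E₂ => fn n (x, y)) := by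
    intro n
    refine HasCompactSupport.of_support_subset_isCompact
      (((cs n).isCompact.image continuous_snd)) ?_
    intro y hy
    exact ⟨(x, y), subset_tsupport _ hy, rfl⟩
  have hsliced : ∀ n, HasCompactSupport (fun y : E₂ => fderiv ℝ (fn n) (x, y) ((0 : E₁), v)) := by
    intro n
    refine HasCompactSupport.of_support_subset_isCompact
      (((cs n).fderiv (𝕜 := ℝ)).isCompact.image continuous_snd) ?_
    intro y hy
    refine ⟨(x, y), subset_tsupport _ ?_, rfl⟩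
    intro h0
    apply hy
    show fderiv ℝ (fn n) (x, y) ((0 : E₁), v) = 0
    rw [h0]
    rfl
  refine IsWD.of_tendsto (l := atTop) (fn := fun n y => fn (φ n) (x, y))
    (gn := fun n y => fderiv ℝ (fn (φ n)) (x, y) ((0 : E₁), v)) ?_ ?_ ?_ hfx hgx hx.1 hx.2
  · refine Eventually.of_forall fun n => ?_
    refine isWD_of_differentiable ?_ ?_ ?_
    · exact (sm _).continuous.comp (by fun_prop)
    · intro y
      have h1 : HasFDerivAt (fn (φ n)) (fderiv ℝ (fn (φ n)) (x, y)) (x, y) :=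
        ((sm (φ n)).differentiable (by simp) _).hasFDerivAt
      have h2 : HasFDerivAt (fun y : E₂ => (x, y)) (ContinuousLinearMap.inr ℝ E₁ E₂) y :=
        hasFDerivAt_prodMk_right x y
      have h3 := (h1.comp y h2).hasLineDerivAt v
      simp only [ContinuousLinearMap.comp_apply, ContinuousLinearMap.inr_apply] at h3
      exact h3
    · exact ((hc (φ n)).comp (by fun_prop : Continuous fun y : E₂ => (x, y))).locallyIntegrable
  · intro n
    exact ((sm _).continuous.comp (by fun_prop)).memLp_of_hasCompactSupport (hslice _)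
  · intro n
    exact ((hc _).comp (by fun_prop)).memLp_of_hasCompactSupport (hsliced _)

end

end Vale.Agent.P363.R801
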