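import Vale.Agent.P363.R801.H2
import Vale.Agent.P363.H943.EL
import Vale.Agent.P363.H382.Contract

/-! Tensor products `d(x) Φ(y)` and the `Q`-part `D = Ψ - d Φ` of a state. -/

namespace Vale.Agent.P363.R801

open MeasureTheory Filter Topology
open Vale.Agent.P363.Stmt
open Vale.Agent.P363.H382
open Vale.Agent.P363.H943
open Vale.Agent.P363.R.Sob
open Vale.Agent.P363.R.Top
open scoped ContDiff ENNReal ComplexConjugate

set_option linter.unusedSectionVars false

noncomputable section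

section generic

variable {E₁ E₂ : Type*} [NormedAddCommGroup E₁] [NormedSpace ℝ E₁] [FiniteDimensional ℝ E₁]
  [MeasurableSpace E₁] [BorelSpace E₁] [NormedAddCommGroup E₂] [NormedSpace ℝ E₂]
  [FiniteDimensional ℝ E₂] [MeasurableSpace E₂] [BorelSpace E₂]
variable {μ₁ : Measure E₁} [μ₁.IsAddHaarMeasure] {μ₂ : Measure E₂} [μ₂.IsAddHaarMeasure]

theorem memLp_tensor {d : E₁ → ℂ} {Φ : E₂ → ℂ} (hd : MemLp d 2 μ₁) (hΦ : MemLp Φ 2 μ₂) :
    MemLp (fun p : E₁ × E₂ => d p.1 * Φ p.2) 2 (μ₁.prod μ₂) := by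
  have hm : AEStronglyMeasurable (fun p : E₁ × E₂ => d p.1 * Φ p.2) (μ₁.prod μ₂) :=
    hd.1.comp_fst.mul hΦ.1.comp_snd
  rw [memLp_two_iff_integrable_sq_norm hm]
  have h1 := (memLp_two_iff_integrable_sq_norm hd.1).1 hd
  have h2 := (memLp_two_iff_integrable_sq_norm hΦ.1).1 hΦ
  refine (h1.mul_prod h2).congr (Eventually.of_forall fun p => ?_)
  simp only [norm_mul, mul_pow]

/-- slices of a test function in the first variable -/
theorem test_slice_left {φ : E₁ × E₂ → ℝ} (hφ : Test φ) (y : E₂) : Test (fun x => φ (x, y)) := by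
  refine ⟨hφ.1.comp (contDiff_prodMk_left y), ?_⟩
  refine HasCompactSupport.of_support_subset_isCompact (hφ.2.isCompact.image continuous_fst) ?_
  intro x hx
  exact ⟨(x, y), subset_tsupport _ hx, rfl⟩

theorem fderiv_slice_left {φ : E₁ × E₂ → ℝ} (hφ : Test φ) (x : E₁) (y : E₂) (v : E₁) :
    fderiv ℝ (fun x => φ (x, y)) x v = fderiv ℝ φ (x, y) (v, 0) := by
  have h1 : HasFDerivAt φ (fderiv ℝ φ (x, y)) (x, y) := (hφ.differentiable _).hasFDerivAt
  have h2 : HasFDerivAt (fun x : E₁ => (x, y)) (ContinuousLinearMap.inl ℝ E₁ E₂) x :=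
    hasFDerivAt_prodMk_left x y
  have h3 := (h1.comp x h2).fderiv
  have h4 : fderiv ℝ (fun x => φ (x, y)) x = (fderiv ℝ φ (x, y)).comp
    (ContinuousLinearMap.inl ℝ E₁ E₂) := h3
  rw [h4]
  simp

theorem isWD_tensor_left {v : E₁} {d d' : E₁ → ℂ} {Φ : E₂ → ℂ} (hd : MemLp d 2 μ₁)
    (hd' : MemLp d' 2 μ₁) (hΦ : MemLp Φ 2 μ₂) (h : IsWD μ₁ v d d') :
    IsWD (μ₁.prod μ₂) ((v, 0) : E₁ × E₂) (fun p => d p.1 * Φ p.2) (fun p => d' p.1 * Φ p.2) := by
  intro φ hφ
  have i1 := (hφ.fderiv ((v, 0) : E₁ × E₂)).integrable_smul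
    ((memLp_tensor (μ₁ := μ₁) (μ₂ := μ₂) hd hΦ).locallyIntegrable (by norm_num))
  have i2 := hφ.integrable_smul
    ((memLp_tensor (μ₁ := μ₁) (μ₂ := μ₂) hd' hΦ).locallyIntegrable (by norm_num))
  rw [integral_prod_symm _ i1, integral_prod_symm _ i2, ← integral_neg]
  refine integral_congr_ae (Eventually.of_forall fun y => ?_)
  simp only
  have h1 := h _ (test_slice_left hφ y)
  have e1 : ∀ x, fderiv ℝ φ (x, y) ((v, 0) : E₁ × E₂) • (d x * Φ y) =
      (fderiv ℝ (fun x => φ (x, y)) x v • d x) * Φ y := by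
    intro x
    rw [fderiv_slice_left hφ, smul_mul_assoc]
  have e2 : ∀ x, φ (x, y) • (d' x * Φ y) = (φ (x, y) • d' x) * Φ y := by
    intro x
    rw [smul_mul_assoc]
  simp only [e1, e2]
  rw [integral_mul_const, integral_mul_const, h1, neg_mul]

theorem isWD_tensor_right {v : E₂} {d : E₁ → ℂ} {Φ Φ' : E₂ → ℂ} (hd : MemLp d 2 μ₁)
    (hΦ : MemLp Φ 2 μ₂) (hΦ' : MemLp Φ' 2 μ₂) (h : IsWD μ₂ v Φ Φ') :
    IsWD (μ₁.prod μ₂) ((0, v) : E₁ × E₂) (fun p => d p.1 * Φ p.2) (fun p => d p.1 * Φ' p.2) := by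
  have h1 := isWD_tensor_left (μ₁ := μ₂) (μ₂ := μ₁) (v := v) hΦ hΦ' hd h
  have h2 := isWD_swap (μ := μ₂) (ν := μ₁) h1
  refine h2.congr ?_ ?_ <;> exact Eventually.of_forall fun p => by simp [mul_comm]

end generic

variable {n : ℕ}

/-- coordinates `1, …, n` -/
def tl (z : Conf (n + 1)) : Conf n := fun i => z i.succ

@[simp] theorem tl_cons (x : R3) (y : Conf n) : tl (Fin.cons x y : Conf (n + 1)) = y := by
  funext i; simp [tl]

/-- spins `1, …, n` -/
def tls (s : Fin (n + 1) → Fin 2) : Fin n → Fin 2 := fun i => s i.succ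

@[simp] theorem tls_cons (a : Fin 2) (s : Fin n → Fin 2) :
    tls (Fin.cons a s : Fin (n + 1) → Fin 2) = s := by
  funext i; simp [tls]

/-- `d(z₀) φ(z₁, …)` -/
def tens (d : R3 → ℂ) (φ : Conf n → ℂ) (z : Conf (n + 1)) : ℂ := d (z 0) * φ (tl z)

theorem tens_consE (d : R3 → ℂ) (φ : Conf n → ℂ) :
    (fun p : R3 × Conf n => tens d φ (consE p)) = fun p => d p.1 * φ p.2 := by
  funext p; simp [tens]

theorem memLp_tens {d : R3 → ℂ} {φ : Conf n → ℂ} (hd : MemLp d 2 volume)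
    (hφ : MemLp φ 2 volume) : MemLp (tens d φ) 2 volume := by
  rw [← memLp_unc_iff, unc_eq, tens_consE]
  exact memLp_tensor hd hφ

theorem isWD_tens_zero {d d' : R3 → ℂ} {φ : Conf n → ℂ} {k : Fin 3} (hd : MemLp d 2 volume)
    (hd' : MemLp d' 2 volume) (hφ : MemLp φ 2 volume) (h : IsWD volume (e3 k) d d') :
    IsWD volume (dir 0 k : Conf (n + 1)) (tens d φ) (tens d' φ) := by
  rw [← consE_dir_zero k, ← isWD_comp_equiv_iff (μ := (volume : Measure (R3 × Conf n))) consE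
    consE_mp, tens_consE, tens_consE]
  exact isWD_tensor_left (μ₁ := (volume : Measure R3)) (μ₂ := (volume : Measure (Conf n)))
    hd hd' hφ h

theorem isWD_tens_succ {d : R3 → ℂ} {φ φ' : Conf n → ℂ} {i : Fin n} {k : Fin 3}
    (hd : MemLp d 2 volume) (hφ : MemLp φ 2 volume) (hφ' : MemLp φ' 2 volume)
    (h : IsWD volume (dir i k) φ φ') :
    IsWD volume (dir i.succ k : Conf (n + 1)) (tens d φ) (tens d φ') := by
  rw [← consE_dir i k, ← isWD_comp_equiv_iff (μ := (volume : Measure (R3 × Conf n))) consE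
    consE_mp, tens_consE, tens_consE]
  exact isWD_tensor_right (μ₁ := (volume : Measure R3)) (μ₂ := (volume : Measure (Conf n)))
    hd hφ hφ' h

/-- the family `δ_{s₀ = a} d(z₀) Φ(z₁, …)`. -/
def prodFam (a : Fin 2) (d : R3 → ℂ) (d' : Fin 3 → R3 → ℂ) (hd : MemLp d 2 volume)
    (hd' : ∀ k, MemLp (d' k) 2 volume) (hwd : ∀ k, IsWD volume (e3 k) d (d' k))
    (Φ : ElectronState n) : Fam (n + 1) where
  amp s := if s 0 = a then tens d (Φ.amp (tls s)) else fun _ => 0
  grad s i k := if s 0 = a then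
    Fin.cases (motive := fun _ => Conf (n + 1) → ℂ) (tens (d' k) (Φ.amp (tls s)))
      (fun j => tens d (Φ.grad (tls s) j k)) i else fun _ => 0
  amp_mem s := by
    split_ifs
    · exact memLp_tens hd (Φ.amp_memLp _)
    · exact MemLp.zero
  grad_mem s i k := by
    split_ifs
    · refine Fin.cases ?_ (fun j => ?_) i
      · exact memLp_tens (hd' k) (Φ.amp_memLp _)
      · exact memLp_tens hd (Φ.grad_memLp _ _ _)
    · exact MemLp.zero
  wd s i k := by
    split_ifs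
    · refine Fin.cases ?_ (fun j => ?_) i
      · exact isWD_tens_zero hd (hd' k) (Φ.amp_memLp _) (hwd k)
      · exact isWD_tens_succ hd (Φ.amp_memLp _) (Φ.grad_memLp _ _ _)
          (isWeakDeriv_iff.1 (Φ.grad_weak _ _ _))
    · exact isWD_zero

/-- the family of a partially antisymmetric state -/
def PState.toFam (u : PState n) : Fam (n + 1) where
  amp := u.amp
  grad := u.grad
  amp_mem := u.amp_memLp
  grad_mem := u.grad_memLp
  wd := u.grad_wd

end

end Vale.Agent.P363.R801
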